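import Vale.Agent.P363.Exist.One.Equation

/-!
P363: absolute values and signs of test functions, and symmetries of the two-centre form about
the axis.
-/

noncomputable section

namespace Vale.Agent.P363.One

open MeasureTheory Filter Set
open scoped BigOperators Topology NNReal RealInnerProductSpace

theorem height_eq_inner (x : Space) : height x = ⟪x, unit3 2⟫ := (inner_unit3 x 2).symm

theorem continuous_height : Continuous height :=
  (EuclideanSpace.proj (2 : Fin 3) : Space →L[ℝ] ℝ).continuous

theorem ae_height_ne : ∀ᵐ x : Space, height x ≠ 0 := by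
  rw [ae_iff]
  have h : {x : Space | ¬height x ≠ 0} =
      ((EuclideanSpace.proj (2 : Fin 3) : Space →L[ℝ] ℝ).toLinearMap.ker : Set Space) := by
    ext x; simp [height]
  rw [h]
  refine Measure.addHaar_submodule _ _ fun htop => ?_
  have := LinearMap.congr_fun (LinearMap.ker_eq_top.1 htop) (unit3 2)
  simp [unit3] at this

/-- The sign of the height. -/
def signH (x : Space) : ℝ := if 0 ≤ height x then 1 else -1

theorem signH_sq (x : Space) : signH x ^ 2 = 1 := by
  unfold signH; split_ifs <;> norm_num

theorem signH_mirror {x : Space} (hx : height x ≠ 0) : signH (mirror x) = -signH x := by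
  rcases lt_or_gt_of_ne hx with h | h
  · simp [signH, height_mirror, h.le, h.not_ge]
  · simp [signH, height_mirror, h.le, h.not_ge]

theorem measurable_signH : Measurable signH :=
  Measurable.ite (measurableSet_le measurable_const continuous_height.measurable) measurable_const
    measurable_const

/-- A Lipschitz function vanishing on the plane stays Lipschitz after flipping the sign below. -/
theorem lipschitz_signH_mul {K : ℝ≥0} {f : Space → ℝ} (hf : LipschitzWith K f)
    (h0 : ∀ x, height x = 0 → f x = 0) : LipschitzWith K fun x => signH x * f x := by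
  refine LipschitzWith.of_dist_le_mul fun x y => ?_
  have hxy : |f x - f y| ≤ K * dist x y := by rw [← Real.dist_eq]; exact hf.dist_le_mul x y
  rw [Real.dist_eq]
  have hcase : ∀ x y, 0 ≤ height x → height y < 0 → |f x + f y| ≤ K * dist x y := by
    intro x y hx hy
    set t := height x / (height x - height y) with ht
    have hd : 0 < height x - height y := by linarith
    have ht0 : 0 ≤ t := div_nonneg hx hd.le
    have ht1 : t ≤ 1 := by rw [ht, div_le_one hd]; linarith
    set z := x + t • (y - x) with hz
    have hz0 : f z = 0 := h0 z (by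
      simp only [height_eq_inner] at ht ⊢
      rw [hz, inner_add_left, real_inner_smul_left, inner_sub_left, ht]
      simp only [← height_eq_inner] at hd ⊢
      field_simp
      ring)
    have e1 : |f x| ≤ K * (t * dist x y) := by
      have := hf.dist_le_mul x z
      rw [Real.dist_eq, hz0, sub_zero] at this
      refine this.trans (le_of_eq ?_)
      rw [hz, dist_eq_norm, sub_add_cancel_left, norm_neg, norm_smul, Real.norm_eq_abs,
        abs_of_nonneg ht0, dist_eq_norm, norm_sub_rev]
    have e2 : |f y| ≤ K * ((1 - t) * dist x y) := by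
      have := hf.dist_le_mul y z
      rw [Real.dist_eq, hz0, sub_zero] at this
      refine this.trans (le_of_eq ?_)
      rw [hz, dist_eq_norm, show y - (x + t • (y - x)) = (1 - t) • (y - x) by module, norm_smul,
        Real.norm_eq_abs, abs_of_nonneg (by linarith), dist_eq_norm, norm_sub_rev]
    exact (abs_add_le _ _).trans ((add_le_add e1 e2).trans (le_of_eq (by ring)))
  unfold signH
  split_ifs with h1 h2 h2
  · simpa using hxy
  · simpa using hcase x y h1 (not_le.1 h2)
  · rw [show -1 * f x - 1 * f y = -(f y + f x) by ring, abs_neg]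
    rw [dist_comm]
    exact hcase y x h2 (not_le.1 h1)
  · rw [show -1 * f x - -1 * f y = -(f x - f y) by ring, abs_neg]
    exact hxy

theorem IsTest1.abs {f : Space → ℝ} (hf : IsTest1 f) : IsTest1 fun x => |f x| := by
  obtain ⟨K, hK⟩ := hf.lipschitz
  exact ⟨⟨_, lipschitzWith_one_norm.comp hK⟩, hf.compact.norm⟩

theorem IsTest1.signed {f : Space → ℝ} (hf : IsTest1 f) (h0 : ∀ x, height x = 0 → f x = 0) :
    IsTest1 fun x => signH x * |f x| := by
  obtain ⟨K, hK⟩ := hf.abs.lipschitz
  exact ⟨⟨K, lipschitz_signH_mul hK fun x hx => by rw [h0 x hx, abs_zero]⟩,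
    hf.abs.compact.mul_left⟩

theorem deriv3_abs_sq_le {f : Space → ℝ} {x : Space} (hf : DifferentiableAt ℝ f x) (a : Fin 3) :
    deriv3 a (fun y => |f y|) x ^ 2 ≤ deriv3 a f x ^ 2 := by
  rcases lt_trichotomy (f x) 0 with h | h | h
  · have e : (fun y => |f y|) =ᶠ[𝓝 x] fun y => -f y := by
      filter_upwards [hf.continuousAt.preimage_mem_nhds (Iio_mem_nhds h)] with y hy
      exact abs_of_neg hy
    simp [deriv3, e.fderiv_eq]
  · have hmin : IsLocalMin (fun y => |f y|) x :=
      Eventually.of_forall fun y => by simp [h]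
    simp only [deriv3, hmin.fderiv_eq_zero, zero_apply]
    nlinarith
  · have e : (fun y => |f y|) =ᶠ[𝓝 x] f := by
      filter_upwards [hf.continuousAt.preimage_mem_nhds (Ioi_mem_nhds h)] with y hy
      exact abs_of_pos hy
    simp [deriv3, e.fderiv_eq]

theorem qform_abs_le (l : ℝ) {f : Space → ℝ} (hf : IsTest1 f) :
    qform l (fun x => |f x|) ≤ qform l f := by
  obtain ⟨K, hK⟩ := hf.lipschitz
  have h : kin (fun x => |f x|) ≤ kin f := by
    refine integral_mono_ae (integrable_grad_sq hf.abs) (integrable_grad_sq hf) ?_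
    filter_upwards [hK.ae_differentiableAt (μ := volume)] with x hx
    exact Finset.sum_le_sum fun a _ => deriv3_abs_sq_le hx a
  simp only [qform, sq_abs]
  linarith

theorem qform_signed_le (l : ℝ) {f : Space → ℝ} (hf : IsTest1 f) :
    qform l (fun x => signH x * |f x|) ≤ qform l f := by
  refine le_trans (le_of_eq ?_) (qform_abs_le l hf)
  have h : kin (fun x => signH x * |f x|) = kin fun x => |f x| := by
    refine integral_congr_ae ?_
    filter_upwards [ae_height_ne] with x hx
    refine Finset.sum_congr rfl fun a _ => ?_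
    rcases lt_or_gt_of_ne hx with h | h
    · have e : (fun y => signH y * |f y|) =ᶠ[𝓝 x] fun y => -|f y| := by
        filter_upwards [continuous_height.continuousAt.preimage_mem_nhds (Iio_mem_nhds h)] with y hy
        rw [signH, if_neg (not_le.2 hy)]; ring
      simp [deriv3, e.fderiv_eq]
    · have e : (fun y => signH y * |f y|) =ᶠ[𝓝 x] fun y => |f y| := by
        filter_upwards [continuous_height.continuousAt.preimage_mem_nhds (Ioi_mem_nhds h)] with y hy
        rw [signH, if_pos (le_of_lt hy), one_mul]
      simp [deriv3, e.fderiv_eq]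
  simp only [qform, h, mul_pow, signH_sq, one_mul]

theorem sqn_abs (f : Space → ℝ) : sqn (fun x => |f x|) = sqn f := by simp [sqn, sq_abs]

theorem sqn_signed (f : Space → ℝ) : sqn (fun x => signH x * |f x|) = sqn f := by
  simp [sqn, mul_pow, signH_sq, sq_abs]

/-- A minimising sequence carried over by a map that keeps norms and lowers energies. -/
theorem limit_map {l e τ : ℝ} {h : Space → ℝ} {φ : ℕ → Space → ℝ} {g : Space → ℝ}
    (hlow : ∀ f, IsTest1 f → Parity τ f → e * sqn f ≤ qform l f)
    (P : (Space → ℝ) → Space → ℝ)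
    (hP : ∀ k, IsTest1 (P (φ k)) ∧ sqn (P (φ k)) = 1 ∧ Parity τ (P (φ k)) ∧
      qform l (P (φ k)) ≤ qform l (φ k))
    (hd : ∀ k, sqn (fun x => P (φ k) x - h x) ≤ sqn (fun x => φ k x - g x))
    (hq : Tendsto (fun k => qform l (φ k)) atTop (𝓝 e))
    (hlim : Tendsto (fun k => sqn (fun x => φ k x - g x)) atTop (𝓝 0)) :
    IsLevelLimit l τ e h := by
  refine ⟨fun k => P (φ k), fun k => ⟨(hP k).1, (hP k).2.1, (hP k).2.2.1⟩,
    tendsto_of_tendsto_of_tendsto_of_le_of_le tendsto_const_nhds hq (fun k => ?_)
      fun k => (hP k).2.2.2,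
    tendsto_of_tendsto_of_tendsto_of_le_of_le tendsto_const_nhds hlim
      (fun k => sqn_nonneg _) hd⟩
  have := hlow _ (hP k).1 (hP k).2.2.1
  rwa [(hP k).2.1, mul_one] at this

theorem memLp_signed {g : Space → ℝ} (hg : MemLp g 2) :
    MemLp (fun x => signH x * |g x|) 2 := by
  refine hg.mono (measurable_signH.aestronglyMeasurable.mul hg.norm.aestronglyMeasurable)
    (Eventually.of_forall fun x => ?_)
  simp only [Real.norm_eq_abs, abs_mul, abs_abs]
  refine mul_le_of_le_one_left (abs_nonneg _) (le_of_eq ?_)
  unfold signH; split_ifs <;> simp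

/-- Absolute values of the lowest state of a sector compete in the even sector. -/
theorem IsSectorMin.abs_limit {l σ e : ℝ} {g : Space → ℝ} (hg : IsSectorMin l σ e g)
    (hσ : σ = 1 ∨ σ = -1) (hlow : ∀ f, IsTest1 f → Parity 1 f → e * sqn f ≤ qform l f) :
    IsSectorMin l 1 e fun x => |g x| := by
  obtain ⟨φ, hφ, hq, hlim⟩ := hg.limit
  refine ⟨hg.memLp.norm, (sqn_abs g).trans hg.norm_one, ?_, hlow⟩
  refine limit_map (g := g) hlow (fun f x => |f x|) (fun k => ⟨(hφ k).1.abs,
    (sqn_abs _).trans (hφ k).2.1, fun x => ?_, qform_abs_le l (hφ k).1⟩) (fun k => ?_) hq hlim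
  · simp only [(hφ k).2.2 x, abs_mul]
    rcases hσ with rfl | rfl <;> simp
  · refine integral_mono (((hφ k).1.memLp.norm.sub hg.memLp.norm).integrable_sq)
      (((hφ k).1.memLp.sub hg.memLp).integrable_sq) fun x => ?_
    exact sq_le_sq.2 (abs_abs_sub_abs_le_abs_sub _ _)

theorem IsSectorMin.signed_limit {l e : ℝ} {g : Space → ℝ} (hg : IsSectorMin l (-1) e g) :
    IsSectorMin l (-1) e fun x => signH x * |g x| := by
  obtain ⟨φ, hφ, hq, hlim⟩ := hg.limit
  have h0 : ∀ k x, height x = 0 → φ k x = 0 := fun k x hx => by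
    have hm : mirror x = x := by rw [mirror, hx, mul_zero, zero_smul, sub_zero]
    have := (hφ k).2.2 x
    rw [hm] at this
    linarith
  refine ⟨memLp_signed hg.memLp, (sqn_signed g).trans hg.norm_one, ?_, hg.lower⟩
  refine limit_map (g := g) hg.lower (fun f x => signH x * |f x|) (fun k =>
    ⟨(hφ k).1.signed (h0 k), (sqn_signed _).trans (hφ k).2.1, fun x => ?_,
      qform_signed_le l (hφ k).1⟩) (fun k => ?_) hq hlim
  · rcases eq_or_ne (height x) 0 with hx | hx
    · simp only [(hφ k).2.2 x, h0 k x hx, mul_zero, abs_zero]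
    · simp only [signH_mirror hx, (hφ k).2.2 x, abs_mul, abs_neg, abs_one, one_mul]
      ring
  · refine integral_mono (((memLp_signed (hφ k).1.memLp).sub (memLp_signed hg.memLp)).integrable_sq)
      (((hφ k).1.memLp.sub hg.memLp).integrable_sq) fun x => ?_
    change (signH x * |φ k x| - signH x * |g x|) ^ 2 ≤ (φ k x - g x) ^ 2
    rw [← mul_sub, mul_pow, signH_sq, one_mul]
    exact sq_le_sq.2 (abs_abs_sub_abs_le_abs_sub _ _)

/-! ### Rotations about the axis -/

variable {T : Space ≃ₗᵢ[ℝ] Space}

theorem height_comp (hT : T (unit3 2) = unit3 2) (x : Space) : height (T x) = height x := by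
  rw [height_eq_inner, height_eq_inner]
  conv_lhs => rw [← hT]
  exact T.inner_map_map x _

theorem mirror_comp (hT : T (unit3 2) = unit3 2) (x : Space) : mirror (T x) = T (mirror x) := by
  rw [mirror, mirror, height_comp hT, map_sub, map_smul, hT]

theorem pot_comp (hT : T (unit3 2) = unit3 2) (l : ℝ) (x : Space) : pot l (T x) = pot l x := by
  have e : T (l • unit3 2) = l • unit3 2 := by rw [map_smul, hT]
  rw [pot_eq, pot_eq]
  conv_lhs => rw [← e, ← map_sub, ← map_add, T.norm_map, T.norm_map]

theorem integral_comp_iso (T : Space ≃ₗᵢ[ℝ] Space) (F : Space → ℝ) :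
    ∫ x, F (T x) = ∫ x, F x :=
  T.measurePreserving.integral_comp T.toHomeomorph.measurableEmbedding F

theorem qform_comp_axis (hT : T (unit3 2) = unit3 2) (l : ℝ) (f : Space → ℝ) :
    qform l (fun x => f (T x)) = qform l f := by
  have h := integral_comp_iso T fun x => pot l x * f x ^ 2
  simp only [pot_comp hT] at h
  rw [qform, qform, kin_comp_isometry, h]

theorem IsSectorMin.comp_axis {l σ e : ℝ} {g : Space → ℝ} (hg : IsSectorMin l σ e g)
    (hT : T (unit3 2) = unit3 2) : IsSectorMin l σ e fun x => g (T x) := by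
  obtain ⟨φ, hφ, hq, hlim⟩ := hg.limit
  have hn : ∀ f : Space → ℝ, sqn (fun x => f (T x)) = sqn f := fun f =>
    integral_comp_iso T fun x => f x ^ 2
  refine ⟨hg.memLp.comp_measurePreserving T.measurePreserving, (hn g).trans hg.norm_one,
    ⟨fun k x => φ k (T x), fun k => ⟨(hφ k).1.comp_isometry T, (hn _).trans (hφ k).2.1,
      fun x => by simp only [← mirror_comp hT, (hφ k).2.2]⟩, ?_, ?_⟩, hg.lower⟩
  · simpa only [qform_comp_axis hT] using hq
  · exact hlim.congr fun k => (hn fun x => φ k x - g x).symm

end Vale.Agent.P363.One
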