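import Vale.Agent.P363.Exist.One.Hydrogen

/-!
P363: two distant centres: IMS localisation gives, in each parity sector, a lower bound with a
gap off one direction.
-/

noncomputable section

namespace Vale.Agent.P363.One

open MeasureTheory Filter Set
open scoped BigOperators Topology NNReal RealInnerProductSpace

theorem height_eq (x : Space) : height x = x 2 := rfl

theorem mirror_apply (x : Space) (a : Fin 3) : mirror x a = if a = 2 then -x a else x a := by
  fin_cases a <;> simp [mirror, height, unit3]
  ring

/-- The mirror as an isometry. -/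
def mirrorIso : Space ≃ₗᵢ[ℝ] Space :=
  LinearIsometryEquiv.piLpCongrRight 2 fun a : Fin 3 =>
    if a = 2 then LinearIsometryEquiv.neg ℝ else LinearIsometryEquiv.refl ℝ ℝ

theorem mirrorIso_apply (x : Space) : mirrorIso x = mirror x := by
  ext a
  rw [mirror_apply]
  fin_cases a <;> simp [mirrorIso]

theorem mirror_mirror (x : Space) : mirror (mirror x) = x := by
  ext a
  rw [mirror_apply, mirror_apply]
  split_ifs <;> ring

theorem height_mirror (x : Space) : height (mirror x) = -height x := by
  rw [height_eq, mirror_apply, if_pos rfl, height_eq]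

theorem mirror_centre (l : ℝ) (j : Fin 2) : mirror (centre l j) = centre l (j + 1) := by
  ext a
  rw [mirror_apply]
  fin_cases j <;> fin_cases a <;> simp [centre, unit3]

theorem pot_eq (l : ℝ) (x : Space) :
    pot l x = 1 / ‖x - l • unit3 2‖ + 1 / ‖x + l • unit3 2‖ := by
  simp [pot, centre, Fin.sum_univ_two]

theorem norm_mirror_sub (x y : Space) : ‖mirror x - mirror y‖ = ‖x - y‖ := by
  rw [← mirrorIso_apply, ← mirrorIso_apply, ← map_sub, mirrorIso.norm_map]

theorem norm_mirror_sub_centre (l : ℝ) (x : Space) :
    ‖mirror x - l • unit3 2‖ = ‖x + l • unit3 2‖ := by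
  have := norm_mirror_sub x (centre l 1)
  rw [mirror_centre] at this
  simpa [centre] using this

theorem pot_mirror (l : ℝ) (x : Space) : pot l (mirror x) = pot l x := by
  rw [pot_eq, pot_eq, norm_mirror_sub_centre]
  have := norm_mirror_sub_centre l (mirror x)
  rw [mirror_mirror] at this
  rw [← this, add_comm]

theorem integral_comp_mirror (F : Space → ℝ) : ∫ x, F (mirror x) = ∫ x, F x := by
  simp only [← mirrorIso_apply]
  exact mirrorIso.measurePreserving.integral_comp mirrorIso.toHomeomorph.measurableEmbedding F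

theorem measurePreserving_mirror : MeasurePreserving mirror (volume : Measure Space) volume := by
  rw [show mirror = mirrorIso from funext fun x => (mirrorIso_apply x).symm]
  exact mirrorIso.measurePreserving

theorem kin_comp_mirror (f : Space → ℝ) : kin (fun x => f (mirror x)) = kin f := by
  simp only [← mirrorIso_apply]
  exact kin_comp_isometry f mirrorIso

theorem qform_comp_mirror (l : ℝ) (f : Space → ℝ) :
    qform l (fun x => f (mirror x)) = qform l f := by
  have := integral_comp_mirror fun x => pot l x * f x ^ 2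
  simp only [pot_mirror] at this
  rw [qform, qform, kin_comp_mirror, this]

theorem IsTest1.comp_mirror {f : Space → ℝ} (hf : IsTest1 f) : IsTest1 fun x => f (mirror x) := by
  simp only [← mirrorIso_apply]
  exact hf.comp_isometry mirrorIso

theorem mul_height_le_norm (l : ℝ) (x : Space) :
    height x + l ≤ ‖x + l • unit3 2‖ := by
  refine le_trans ?_ ((le_abs_self _).trans (PiLp.norm_apply_le (x + l • unit3 2) 2))
  simp [height, unit3]

/-- The angle of the partition of unity. -/
def angle (l : ℝ) (x : Space) : ℝ :=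
  Real.pi / 4 * (1 - max (-1) (min 1 (2 * height x / l)))

theorem lipschitz_angle {l : ℝ} (hl : 0 < l) :
    LipschitzWith (Real.pi / (2 * l)).toNNReal (angle l) := by
  refine LipschitzWith.of_dist_le_mul fun x y => ?_
  rw [Real.coe_toNNReal _ (by positivity), Real.dist_eq, angle, angle, ← mul_sub, abs_mul,
    abs_of_pos (by positivity : (0 : ℝ) < Real.pi / 4), dist_eq_norm]
  have h1 : |max (-1) (min 1 (2 * height x / l)) - max (-1) (min 1 (2 * height y / l))| ≤
      |2 * height x / l - 2 * height y / l| := by
    refine (abs_max_sub_max_le_max _ _ _ _).trans ?_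
    rw [sub_self, abs_zero, max_eq_right (abs_nonneg _)]
    refine (abs_min_sub_min_le_max _ _ _ _).trans ?_
    rw [sub_self, abs_zero, max_eq_right (abs_nonneg _)]
  have h2 : |height x - height y| ≤ ‖x - y‖ := PiLp.norm_apply_le (x - y) 2
  rw [show (1 : ℝ) - max (-1) (min 1 (2 * height x / l)) -
      (1 - max (-1) (min 1 (2 * height y / l))) =
      -(max (-1) (min 1 (2 * height x / l)) - max (-1) (min 1 (2 * height y / l))) by ring, abs_neg]
  calc Real.pi / 4 * _ ≤ Real.pi / 4 * (2 / l * ‖x - y‖) := by
        refine mul_le_mul_of_nonneg_left (h1.trans ?_) (by positivity)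
        rw [← sub_div, ← mul_sub, abs_div, abs_mul, abs_two, abs_of_pos hl]
        calc 2 * |height x - height y| / l ≤ 2 * ‖x - y‖ / l := by gcongr
          _ = _ := by ring
    _ = _ := by ring

theorem angle_mirror (l : ℝ) (x : Space) : angle l (mirror x) = Real.pi / 2 - angle l x := by
  have h : ∀ t : ℝ, max (-1) (min 1 (-t)) = -max (-1) (min 1 t) := fun t => by
    rcases le_total t (-1) with h | h
    · rw [min_eq_left (by linarith), min_eq_right (by linarith), max_eq_left h,
        max_eq_right (by linarith)]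
      ring
    rcases le_total 1 t with h' | h'
    · rw [min_eq_right (by linarith), min_eq_left h', max_eq_left (by linarith),
        max_eq_right (by linarith)]
    · rw [min_eq_right (by linarith), min_eq_right h', max_eq_right (by linarith),
        max_eq_right h]
  rw [angle, angle, height_mirror, show 2 * -height x / l = -(2 * height x / l) by ring, h]
  ring

theorem angle_eq_zero {l : ℝ} (hl : 0 < l) {x : Space} (hx : l / 2 ≤ height x) :
    angle l x = 0 := by
  have : 1 ≤ 2 * height x / l := by rw [le_div_iff₀ hl]; linarith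
  rw [angle, min_eq_left this, max_eq_right (by norm_num)]
  ring

theorem angle_eq_pi {l : ℝ} (hl : 0 < l) {x : Space} (hx : height x ≤ -(l / 2)) :
    angle l x = Real.pi / 2 := by
  have : 2 * height x / l ≤ -1 := by rw [div_le_iff₀ hl]; linarith
  rw [angle, min_eq_right (by linarith), max_eq_left this]
  ring

/-- The part of `f` at the upper nucleus. -/
def upPart (l : ℝ) (f : Space → ℝ) (x : Space) : ℝ := Real.cos (angle l x) * f x

/-- The part of `f` at the lower nucleus. -/
def downPart (l : ℝ) (f : Space → ℝ) (x : Space) : ℝ := Real.sin (angle l x) * f x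

theorem isTest1_upPart {l : ℝ} (hl : 0 < l) {f : Space → ℝ} (hf : IsTest1 f) :
    IsTest1 (upPart l f) :=
  hf.mul (Real.lipschitzWith_cos.comp (lipschitz_angle hl))

theorem isTest1_downPart {l : ℝ} (hl : 0 < l) {f : Space → ℝ} (hf : IsTest1 f) :
    IsTest1 (downPart l f) :=
  hf.mul (Real.lipschitzWith_sin.comp (lipschitz_angle hl))

/-- The hydrogen form about the point `p`. -/
def qAt (p : Space) (f : Space → ℝ) : ℝ := kin f / 2 - ∫ x, f x ^ 2 / ‖x - p‖

theorem qAt_eq (p : Space) (f : Space → ℝ) : qAt p f = qH fun y => f (y + p) := by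
  have h : kin (fun y => f (y + p)) = kin f := by
    have := kin_comp_sub f (-p)
    simpa only [sub_neg_eq_add] using this
  rw [qAt, qH, h]
  congr 1
  rw [← integral_add_right_eq_self (fun x => f x ^ 2 / ‖x - p‖) p]
  simp

/-- IMS localisation at the two nuclei. -/
theorem qform_ge_parts {l : ℝ} (hl : 0 < l) {f : Space → ℝ} (hf : IsTest1 f) :
    qAt (l • unit3 2) (upPart l f) + qAt (-(l • unit3 2)) (downPart l f) -
      (2 / l + 3 * (Real.pi / (2 * l)) ^ 2 / 2) * sqn f ≤ qform l f := by
  obtain ⟨K, hK⟩ := hf.lipschitz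
  have hu := isTest1_upPart hl hf
  have hd := isTest1_downPart hl hf
  have hF := integrable_sq hf
  have hθ := lipschitz_angle hl
  have hk : kin (upPart l f) + kin (downPart l f) ≤
      kin f + 3 * (Real.pi / (2 * l)) ^ 2 * sqn f := by
    simp only [kin, sqn]
    rw [← integral_const_mul, ← integral_add (integrable_grad_sq hu) (integrable_grad_sq hd),
      ← integral_add (integrable_grad_sq hf) (hF.const_mul _)]
    refine integral_mono_ae ((integrable_grad_sq hu).add (integrable_grad_sq hd))
      ((integrable_grad_sq hf).add (hF.const_mul _)) ?_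
    filter_upwards [hK.ae_differentiableAt (μ := volume), hθ.ae_differentiableAt (μ := volume)]
      with x hx hy
    rw [← Finset.sum_add_distrib]
    have hterm : ∀ a, deriv3 a (upPart l f) x ^ 2 + deriv3 a (downPart l f) x ^ 2 ≤
        deriv3 a f x ^ 2 + (Real.pi / (2 * l)) ^ 2 * f x ^ 2 := by
      intro a
      have ec : deriv3 a (fun y => Real.cos (angle l y)) x =
          -Real.sin (angle l x) * deriv3 a (angle l) x := by
        simp [deriv3, fderiv_cos hy]
      have es : deriv3 a (fun y => Real.sin (angle l y)) x =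
          Real.cos (angle l x) * deriv3 a (angle l) x := by
        simp [deriv3, fderiv_sin hy]
      unfold upPart downPart
      rw [deriv3_mul hy.cos hx, deriv3_mul hy.sin hx, ec, es]
      have hb : deriv3 a (angle l) x ^ 2 ≤ (Real.pi / (2 * l)) ^ 2 := by
        have := abs_deriv3_le hθ a x
        rw [Real.coe_toNNReal _ (by positivity)] at this
        rw [← sq_abs (deriv3 a _ x)]
        exact pow_le_pow_left₀ (abs_nonneg _) this 2
      have h1 := Real.sin_sq_add_cos_sq (angle l x)
      calc _ = (Real.sin (angle l x) ^ 2 + Real.cos (angle l x) ^ 2) *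
            (deriv3 a f x ^ 2 + deriv3 a (angle l) x ^ 2 * f x ^ 2) := by ring
        _ ≤ _ := by
          rw [h1, one_mul]
          exact add_le_add le_rfl (mul_le_mul_of_nonneg_right hb (sq_nonneg _))
    refine (Finset.sum_le_sum fun a _ => hterm a).trans (le_of_eq ?_)
    rw [Finset.sum_add_distrib, Finset.sum_const, Finset.card_univ, Fintype.card_fin,
      nsmul_eq_mul]
    push_cast
    ring
  have iu := integrable_div_norm hu.sq.continuous hu.sq.compact (l • unit3 2)
  have id' := integrable_div_norm hd.sq.continuous hd.sq.compact (-(l • unit3 2))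
  have hp : ∫ x, pot l x * f x ^ 2 ≤ (∫ x, upPart l f x ^ 2 / ‖x - l • unit3 2‖) +
      (∫ x, downPart l f x ^ 2 / ‖x - -(l • unit3 2)‖) + 2 / l * sqn f := by
    simp only [sqn]
    rw [← integral_const_mul, ← integral_add iu id']
    refine le_of_le_of_eq (integral_mono (integrable_pot_mul l hf.sq.continuous hf.sq.compact)
      ((iu.add id').add (hF.const_mul _)) fun x => ?_)
      (integral_add (iu.add id') (hF.const_mul _))
    simp only [Pi.add_apply, upPart, downPart, mul_pow, sub_neg_eq_add, pot_eq]
    set c := Real.cos (angle l x)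
    set s := Real.sin (angle l x)
    have h1 : s ^ 2 + c ^ 2 = 1 := Real.sin_sq_add_cos_sq _
    set P := 1 / ‖x - l • unit3 2‖ with hP
    set N := 1 / ‖x + l • unit3 2‖ with hN
    rw [show c ^ 2 * f x ^ 2 / ‖x - l • unit3 2‖ = P * c ^ 2 * f x ^ 2 by rw [hP]; ring,
      show s ^ 2 * f x ^ 2 / ‖x + l • unit3 2‖ = N * s ^ 2 * f x ^ 2 by rw [hN]; ring]
    have h2 : N * c ^ 2 ≤ 2 / l * c ^ 2 := by
      rcases le_or_gt (height x) (-(l / 2)) with h | h
      · rw [show c = 0 by simp [c, angle_eq_pi hl h]]
        simp
      · refine mul_le_mul_of_nonneg_right ?_ (sq_nonneg _)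
        rw [hN, div_le_div_iff₀ (by linarith [mul_height_le_norm l x]) hl]
        linarith [mul_height_le_norm l x]
    have h3 : P * s ^ 2 ≤ 2 / l * s ^ 2 := by
      rcases le_or_gt (l / 2) (height x) with h | h
      · rw [show s = 0 by simp [s, angle_eq_zero hl h]]
        simp
      · refine mul_le_mul_of_nonneg_right ?_ (sq_nonneg _)
        have : -height x + l ≤ ‖x - l • unit3 2‖ := by
          have := mul_height_le_norm l (mirror x)
          rw [height_mirror] at this
          have h' := norm_mirror_sub_centre l (mirror x)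
          rw [mirror_mirror] at h'
          linarith
        rw [hP, div_le_div_iff₀ (by linarith) hl]
        linarith
    calc (P + N) * f x ^ 2
        = ((P * c ^ 2 + N * s ^ 2) + (N * c ^ 2 + P * s ^ 2)) * f x ^ 2 := by
          rw [show (P * c ^ 2 + N * s ^ 2) + (N * c ^ 2 + P * s ^ 2) =
            (P + N) * (s ^ 2 + c ^ 2) by ring, h1, mul_one]
      _ ≤ ((P * c ^ 2 + N * s ^ 2) + (2 / l * c ^ 2 + 2 / l * s ^ 2)) * f x ^ 2 := by gcongr
      _ = _ := by rw [← mul_add (2 / l), add_comm (c ^ 2), h1]; ring
  simp only [qAt, qform]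
  nlinarith [hp, hk]

theorem upPart_mirror (l : ℝ) (f : Space → ℝ) (x : Space) :
    upPart l f (mirror x) = Real.sin (angle l x) * f (mirror x) := by
  rw [upPart, angle_mirror, Real.cos_pi_div_two_sub]

theorem sqn_parts {l : ℝ} (hl : 0 < l) {f : Space → ℝ} (hf : IsTest1 f) :
    sqn f = sqn (upPart l f) + sqn (downPart l f) := by
  simp only [sqn]
  rw [← integral_add (integrable_sq (isTest1_upPart hl hf)) (integrable_sq (isTest1_downPart hl hf))]
  refine integral_congr_ae (Eventually.of_forall fun x => ?_)
  simp only [upPart, downPart, mul_pow, ← add_mul, Real.cos_sq_add_sin_sq, one_mul]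

/-- The lower bound in a parity sector. -/
theorem sector_lower : ∃ γ : ℝ, 0 < γ ∧ γ ≤ 1 / 4 ∧ ∃ l₀ : ℝ, 0 < l₀ ∧ ∀ l, l₀ ≤ l →
    ∃ ξ : Space → ℝ, MemLp ξ 2 ∧ ∀ σ : ℝ, σ ^ 2 = 1 → ∀ f, IsTest1 f →
      (∀ x, f (mirror x) = σ * f x) → (-1 / 2 + γ) * sqn f - ip ξ f ^ 2 ≤ qform l f := by
  obtain ⟨γ, hγ, ξ, hξ, hgap⟩ := hydrogen_gap
  set δ := min (γ / 2) (1 / 4) with hδ
  have hδ0 : 0 < δ := lt_min (half_pos hγ) (by norm_num)
  refine ⟨δ, hδ0, min_le_right _ _, max 1 (20 / (γ - δ)),
    lt_max_of_lt_left one_pos, fun l hl => ?_⟩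
  have hl1 : 1 ≤ l := (le_max_left _ _).trans hl
  have hl0 : 0 < l := one_pos.trans_le hl1
  have hγδ : 0 < γ - δ := by linarith [min_le_left (γ / 2) (1 / 4)]
  have herr : 2 / l + 3 * (Real.pi / (2 * l)) ^ 2 / 2 ≤ γ - δ := by
    have h1 : 20 / (γ - δ) ≤ l := (le_max_right _ _).trans hl
    rw [div_le_iff₀ hγδ] at h1
    have h2 : (Real.pi / (2 * l)) ^ 2 ≤ 4 / l := by
      have hp := Real.pi_le_four
      have : (Real.pi / (2 * l)) ^ 2 ≤ (2 / l) ^ 2 := by
        refine pow_le_pow_left₀ (by positivity) ?_ 2
        rw [div_le_div_iff₀ (by positivity) hl0]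
        nlinarith
      refine this.trans ?_
      rw [div_pow, div_le_div_iff₀ (by positivity) hl0]
      nlinarith
    have h3 : 8 / l ≤ γ - δ := by rw [div_le_iff₀ hl0]; linarith
    have h4 : (8 : ℝ) / l = 2 / l + 3 * (4 / l) / 2 := by ring
    linarith
  set R := l • unit3 2 with hR
  refine ⟨fun x => √2 * (Real.cos (angle l x) * ξ (x - R)), ?_, fun σ hσ f hf hpar => ?_⟩
  · have h1 : MemLp (fun x => ξ (x - R)) 2 :=
      hξ.comp_measurePreserving (measurePreserving_sub_right volume R)
    refine MemLp.const_mul (h1.mono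
      ((Real.continuous_cos.comp (lipschitz_angle hl0).continuous).aestronglyMeasurable.mul
        h1.aestronglyMeasurable) (Eventually.of_forall fun x => ?_)) _
    simp only [Pi.mul_apply, Function.comp_apply, norm_mul]
    exact mul_le_of_le_one_left (norm_nonneg _) (Real.abs_cos_le_one _)
  have hu := isTest1_upPart hl0 hf
  set g : Space → ℝ := fun y => upPart l f (y + R) with hg
  have hgt : IsTest1 g := by
    have := hu.comp_sub (-R)
    simpa only [sub_neg_eq_add] using this
  have hdown : ∀ x, downPart l f x = σ * upPart l f (mirror x) := fun x => by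
    rw [upPart_mirror, hpar, downPart]
    linear_combination (-(Real.sin (angle l x) * f x)) * hσ
  have hq : qAt (-R) (downPart l f) = qAt R (upPart l f) := by
    have hk : kin (downPart l f) = kin (upPart l f) := by
      rw [show downPart l f = fun x => σ * upPart l f (mirror x) + 0 * upPart l f (mirror x) from
        funext fun x => by rw [hdown, zero_mul, add_zero],
        kin_add_smul hu.comp_mirror hu.comp_mirror, kin_comp_mirror, hσ]
      ring
    rw [qAt, qAt, hk, ← integral_comp_mirror fun x => upPart l f x ^ 2 / ‖x - R‖]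
    congr 2
    funext x
    rw [hdown, mul_pow, hσ, one_mul, norm_mirror_sub_centre, sub_neg_eq_add]
  have hs : sqn (downPart l f) = sqn (upPart l f) := by
    rw [sqn, sqn, ← integral_comp_mirror fun x => upPart l f x ^ 2]
    congr 1
    funext x
    rw [hdown, mul_pow, hσ, one_mul]
  have hgs : sqn g = sqn (upPart l f) :=
    integral_add_right_eq_self (fun x => upPart l f x ^ 2) R
  have hip : ip (fun x => √2 * (Real.cos (angle l x) * ξ (x - R))) f ^ 2 = 2 * ip ξ g ^ 2 := by
    have : ip ξ g = ∫ x, Real.cos (angle l x) * ξ (x - R) * f x := by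
      rw [ip, ← integral_add_right_eq_self (fun x => Real.cos (angle l x) * ξ (x - R) * f x) R]
      congr 1
      funext x
      simp only [hg, upPart, add_sub_cancel_right]
      ring
    rw [this]
    simp only [ip, mul_assoc]
    rw [integral_const_mul, mul_pow, Real.sq_sqrt zero_le_two]
  have h1 := qform_ge_parts hl0 hf
  have h2 := hgap g hgt
  change qAt R (upPart l f) + qAt (-R) (downPart l f) - _ ≤ _ at h1
  rw [hq, qAt_eq] at h1
  change qH g + qH g - _ ≤ _ at h1
  rw [hip]
  have h5 := mul_le_mul_of_nonneg_right herr (sqn_nonneg f)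
  have h3 := sqn_parts hl0 hf
  rw [hs] at h3
  rw [hgs] at h2
  rw [h3] at h1 h5 ⊢
  linarith

end Vale.Agent.P363.One
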