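import Vale.Agent.P363.Exist.One.Main
import Vale.Agent.P363.Exist.Mol

/-!
P363: the two levels of one electron in the form used by the existence module: form limits with
gradients and weak equations against Lipschitz tests.
-/

noncomputable section

namespace Vale.Agent.P363.Exist

open MeasureTheory Filter
open scoped BigOperators Topology ENNReal

/-- Test functions of parity `σ`. -/
def parP (σ : ℝ) (φ : Space → ℝ) : Prop := ∀ x, φ (mirror x) = σ * φ x

theorem closed_parP (σ : ℝ) : Closed (parP σ) := fun a b φ χ hφ hχ x => by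
  simp only [Pi.add_apply, Pi.smul_apply, smul_eq_mul, hφ x, hχ x]
  ring

theorem formOne_eq_qform (l : ℝ) {φ : Space → ℝ} (hφ : IsRealTest φ) :
    formOne l φ = One.qform l φ := by
  have hp := (One.potBound l 1 one_pos φ (isTest1 hφ)).1
  simp only [formOne, One.qform, One.kin, attract_eq]
  rw [integral_sub ((One.integrable_grad_sq (isTest1 hφ)).const_mul _) hp, integral_const_mul]
  ring

theorem bil_oneSys_self (l e : ℝ) {φ : Space → ℝ} (hφ : IsRealTest φ) :
    (oneSys l).bil e φ φ = One.qform l φ - e * mass φ := by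
  rw [Sys.bil_eq_form (oneSys_good l) e hφ, form_oneSys, formOne_eq_qform l hφ]

/-- A nondegenerate level of a sector is a form limit and solves the weak equation. -/
theorem sector_state {l σ e gap : ℝ} (hgap : 0 < gap) (hσ : σ ^ 2 = 1) {g : Space → ℝ}
    (hg : MemLp g 2) (hn : One.sqn g = 1) (hlim : One.IsLevelLimit l σ e g)
    (hlow : ∀ φ, One.IsTest1 φ → parP σ φ →
      e * One.ip g φ ^ 2 + (e + gap) * (One.sqn φ - One.ip g φ ^ 2) ≤ One.qform l φ) :
    ∃ D : Fin 3 → Space → ℝ, (∀ a, MemLp (D a) 2) ∧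
      (∃ φ : ℕ → Space → ℝ, (∀ k, IsRealTest (φ k) ∧ parP σ (φ k)) ∧
        Tendsto (fun k => ∫ x, (φ k x - g x) ^ 2) atTop (𝓝 0) ∧
        ∀ a, Tendsto (fun k => ∫ x, (deriv3 a (φ k) x - D a x) ^ 2) atTop (𝓝 0)) ∧
      ∀ η : Space → ℝ, IsRealTest η →
        ∫ x, ((1 / 2 : ℝ) * ∑ a, D a x * deriv3 a η x - (attract l x + e) * g x * η x) = 0 := by
  have hS := oneSys_good l
  have hm : mass g = 1 := hn
  have hG : (oneSys l).Gapped (parP σ) g e gap gap := by
    refine ⟨hS, closed_parP σ, hg, hm, hgap, hgap.le, fun φ hφ hP => ?_, fun φ hφ hP => ?_⟩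
    · have h := hlow φ (isTest1 hφ) hP
      have hA := ip_sq_le hg (memLp_test hφ)
      rw [hm, one_mul] at hA
      rw [bil_oneSys_self l e hφ]
      have := mul_nonneg hgap.le (sub_nonneg.2 hA)
      change e * ip g φ ^ 2 + (e + gap) * (mass φ - ip g φ ^ 2) ≤ _ at h
      linarith
    · have h := hlow φ (isTest1 hφ) hP
      rw [bil_oneSys_self l e hφ]
      change e * ip g φ ^ 2 + (e + gap) * (mass φ - ip g φ ^ 2) ≤ _ at h
      linarith
  obtain ⟨φ, hφ, hq, hl⟩ := hlim
  have hφm : ∀ k, MemLp (φ k) 2 := fun k => (hφ k).1.memLp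
  have hl' : Tendsto (fun k => mass (φ k - g)) atTop (𝓝 0) := hl
  have hov : Tendsto (fun k => ip g (φ k)) atTop (𝓝 1) := by
    have := tendsto_ip (fun _ => hg) hφm hg hg (tendsto_const_mass g) hl'
    rwa [ip_self, hm] at this
  obtain ⟨N, hN⟩ := eventually_atTop.1 (hov.eventually_const_le zero_lt_one)
  have hsh := tendsto_add_atTop_nat N
  set ψ : ℕ → Space → ℝ := fun k => φ (k + N) with hψ
  have hmin : (oneSys l).Minimising (parP σ) g e ψ := by
    refine ⟨fun k => ⟨(hφ _).1.lipschitz, (hφ _).1.compact⟩, fun k => (hφ _).2.2,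
      fun k => (hφ _).2.1, fun k => hN _ (by omega), ?_⟩
    have h1 : ∀ k, (oneSys l).bil e (ψ k) (ψ k) = One.qform l (φ (k + N)) - e := fun k => by
      rw [bil_oneSys_self l e ⟨(hφ _).1.lipschitz, (hφ _).1.compact⟩,
        show mass (φ (k + N)) = 1 from (hφ _).2.1, mul_one]
    simp only [h1]
    simpa using (hq.comp hsh).sub_const e
  obtain ⟨f, D, hA, -, -, -, hweak⟩ := hG.exists_limit hmin
  have hfg : f =ᵐ[volume] g :=
    ae_eq_of_limits (fun k => hφm (k + N)) hA.memLp hg hA.value (hl'.comp hsh)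
  refine ⟨D, hA.memLp_grad, ⟨ψ, fun k => ⟨hmin.test k, hmin.sector k⟩, hl'.comp hsh,
    fun a => hA.grad a⟩, fun η hη => ?_⟩
  have hT : (oneSys l).Symm One.mirrorIso.toContinuousLinearEquiv :=
    oneSys_symm (Or.inr mirrorIso_axis) l
  have hTT : ∀ x, One.mirrorIso.toContinuousLinearEquiv
      (One.mirrorIso.toContinuousLinearEquiv x) = x := fun x => by
    change One.mirrorIso (One.mirrorIso x) = x
    simp [One.mirrorIso_apply, One.mirror_mirror]
  have hM : ∀ x, One.mirrorIso.toContinuousLinearEquiv x = mirror x := One.mirrorIso_apply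
  have h0 := hweak η hη ⟨(1 / 2 : ℝ) • η + (σ / 2) • (η ∘ One.mirrorIso.toContinuousLinearEquiv),
    isRealTest_comb _ _ hη (isRealTest_comp hη _), fun x => ?_, fun k => ?_⟩
  · have hi := (hA.tendsto_bil (Sys.Approx.const _ hη) hS e).1
    have i1 : Integrable fun x => (1 / 2 : ℝ) * ∑ a, D a x * deriv3 a η x :=
      (integrable_finsetSum _ fun a _ =>
        (hA.memLp_grad a).integrable_mul (memLp_dir hη (unit3 a))).const_mul _
    have e1 : (fun x => (1 / 2 : ℝ) * ∑ a, D a x * deriv3 a η x - (attract l x + e) * g x * η x)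
        =ᵐ[volume] fun x => (1 / 2 : ℝ) * ∑ a, D a x * deriv3 a η x +
          ((oneSys l).V x - e) * f x * η x := by
      filter_upwards [hfg] with x hx
      simp only [oneSys, hx]
      ring
    rw [integral_congr_ae e1, integral_add i1 hi, integral_const_mul,
      integral_finsetSum _ fun a _ => ?_]
    · exact h0
    · exact (hA.memLp_grad a).integrable_mul (memLp_dir hη (unit3 a))
  · simp only [Pi.add_apply, Pi.smul_apply, Function.comp_apply, smul_eq_mul, hM,
      One.mirror_mirror]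
    linear_combination (-(η (mirror x) / 2)) * hσ
  · exact (hT.bil_avg hS hTT hσ e (hmin.test k) hη fun x => by rw [hM]; exact hmin.sector k x).symm

/-- The zero order goal. -/
theorem zeroOrder : ZeroOrderGoal := by
  obtain ⟨γ, hγ, -, hlev⟩ := One.levels_uniform
  refine ⟨γ, hγ, fun ε hε => ?_⟩
  obtain ⟨l₀, hl₀, h⟩ := hlev ε hε
  refine ⟨l₀, hl₀, fun l hl => ?_⟩
  obtain ⟨eg, eu, g, u, hL, hgb, hub⟩ := h l hl
  have hgap : (-1 / 2 + γ - eu) + eu = -1 / 2 + γ := by ring
  have hσe : (1 : ℝ) ^ 2 = 1 := by norm_num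
  have hσo : (-1 : ℝ) ^ 2 = 1 := by norm_num
  have hge : (fun x => g (mirror x)) =ᵐ[volume] fun x => (1 : ℝ) * g x :=
    hL.g_even.trans (Eventually.of_forall fun x => (one_mul _).symm)
  have huo : (fun x => u (mirror x)) =ᵐ[volume] fun x => (-1 : ℝ) * u x :=
    hL.u_odd.trans (Eventually.of_forall fun x => (neg_one_mul _).symm)
  have hlg : 0 < -1 / 2 + γ - eg := by linarith [hL.eg_lt_eu, hL.gap_pos]
  obtain ⟨Dg, hDg, ⟨φg, hφg, hg1, hg2⟩, hgw⟩ := sector_state hlg hσe hL.g_memLp hL.g_norm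
    hL.g_limit fun φ hφ hP => by
      have h := hL.lower φ hφ
      have h0 : One.ip u φ = 0 := by
        rw [One.ip_comm]
        exact One.ip_parity_zero hσe (Eventually.of_forall hP) huo
      rw [h0] at h
      linarith
  obtain ⟨Du, hDu, ⟨φu, hφu, hu1, hu2⟩, huw⟩ := sector_state hL.gap_pos hσo hL.u_memLp hL.u_norm
    hL.u_limit fun φ hφ hP => by
      have h := hL.lower φ hφ
      have h0 : One.ip g φ = 0 := One.ip_parity_zero hσe hge (Eventually.of_forall hP)
      rw [h0] at h
      linarith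
  refine ⟨g, u, Dg, Du, eg, eu, ?_, hgb, hub⟩
  refine
    { g_lim := ⟨hL.g_memLp, hDg, φg, fun k => ⟨(hφg k).1, fun x => by
        rw [(hφg k).2 x, one_mul]⟩, hg1, hg2⟩
      u_lim := ⟨hL.u_memLp, hDu, φu, fun k => ⟨(hφu k).1, fun x => by
        rw [(hφu k).2 x, neg_one_mul]⟩, hu1, hu2⟩
      g_mass := hL.g_norm
      u_mass := hL.u_norm
      g_weak := hgw
      u_weak := huw
      g_even := hL.g_even
      u_odd := hL.u_odd
      g_axis := hL.g_axial
      u_axis := hL.u_axial
      g_pos := hL.g_pos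
      u_pos := hL.u_pos
      eg_lt := hL.eg_lt_eu
      eu_lt := by linarith [hL.gap_pos]
      e'_neg := by linarith [hL.top_neg]
      gap := fun φ hφ => ?_ }
  have h := hL.lower φ (isTest1 hφ)
  rw [formOne_eq_qform l hφ]
  simp only [One.ip, One.sqn] at h
  linarith

end Vale.Agent.P363.Exist
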