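import Vale.Agent.P363.Exist.One.Spec

/-!
P363: calculus for real test functions on `ℝ³`: gradients, integration by parts against the
radial field, the Coulomb singularity.
-/

noncomputable section

namespace Vale.Agent.P363.One

open MeasureTheory Filter Set
open scoped BigOperators Topology NNReal RealInnerProductSpace

theorem norm_unit3 (a : Fin 3) : ‖unit3 a‖ = 1 := by simp [unit3]

theorem inner_unit3 (x : Space) (a : Fin 3) : ⟪x, unit3 a⟫ = x a := by
  simp [unit3, EuclideanSpace.inner_single_right]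

theorem unit3_apply (a b : Fin 3) : unit3 a b = if b = a then 1 else 0 := by
  simp [unit3]

theorem measurable_deriv3 (a : Fin 3) (f : Space → ℝ) : Measurable (deriv3 a f) :=
  measurable_fderiv_apply_const ℝ f (unit3 a)

theorem abs_deriv3_le {K : ℝ≥0} {f : Space → ℝ} (hf : LipschitzWith K f) (a : Fin 3) (x : Space) :
    |deriv3 a f x| ≤ K := by
  rw [← Real.norm_eq_abs]
  refine (ContinuousLinearMap.le_opNorm _ _).trans ?_
  rw [norm_unit3, mul_one]
  exact norm_fderiv_le_of_lipschitz ℝ hf

theorem deriv3_eq_zero {f : Space → ℝ} {x : Space} (hx : x ∉ tsupport f) (a : Fin 3) :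
    deriv3 a f x = 0 := by
  simp [deriv3, fderiv_of_notMem_tsupport ℝ hx]

theorem deriv3_mul {f g : Space → ℝ} {x : Space} (hf : DifferentiableAt ℝ f x)
    (hg : DifferentiableAt ℝ g x) (a : Fin 3) :
    deriv3 a (fun y => f y * g y) x = f x * deriv3 a g x + g x * deriv3 a f x := by
  simp [deriv3, fderiv_fun_mul hf hg]

/-- A bounded measurable function times a test function is integrable. -/
theorem integrable_of_bound_tsupport {f : Space → ℝ} (hfc : HasCompactSupport f)
    {F : Space → ℝ} (hm : Measurable F) {B : ℝ} (hB : ∀ x, |F x| ≤ B)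
    (h0 : ∀ x, x ∉ tsupport f → F x = 0) : Integrable F := by
  refine IntegrableOn.integrable_of_forall_notMem_eq_zero (s := tsupport f) ?_ h0
  exact Measure.integrableOn_of_bounded hfc.measure_lt_top.ne hm.aestronglyMeasurable (M := B)
    (Eventually.of_forall fun x => by simpa using hB x)

theorem IsTest1.exists_bound {f : Space → ℝ} (hf : IsTest1 f) :
    ∃ B, 0 ≤ B ∧ ∀ x, |f x| ≤ B := by
  obtain ⟨K, hK⟩ := hf.lipschitz
  obtain ⟨B, hB⟩ := hf.compact.exists_bound_of_continuous hK.continuous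
  exact ⟨B, (norm_nonneg _).trans (hB 0), fun x => by simpa using hB x⟩

theorem IsTest1.continuous {f : Space → ℝ} (hf : IsTest1 f) : Continuous f := by
  obtain ⟨K, hK⟩ := hf.lipschitz
  exact hK.continuous

theorem IsTest1.mul {f η : Space → ℝ} (hf : IsTest1 f) {L : ℝ≥0} (hη : LipschitzWith L η) :
    IsTest1 fun x => η x * f x := by
  obtain ⟨K, hK⟩ := hf.lipschitz
  obtain ⟨B, hB0, hB⟩ := hf.exists_bound
  obtain ⟨C, hC⟩ := hf.compact.exists_bound_of_continuousOn hη.continuous.continuousOn
  refine ⟨⟨(L * B + |C| * K).toNNReal, LipschitzWith.of_dist_le_mul fun x y => ?_⟩,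
    hf.compact.mul_left⟩
  rw [Real.coe_toNNReal _ (by positivity), Real.dist_eq]
  have h1 : |f x - f y| ≤ K * dist x y := by rw [← Real.dist_eq]; exact hK.dist_le_mul x y
  have h2 : |η x - η y| ≤ L * dist x y := by rw [← Real.dist_eq]; exact hη.dist_le_mul x y
  by_cases hx : x ∈ tsupport f
  · calc |η x * f x - η y * f y| = |η x * (f x - f y) + (η x - η y) * f y| := by ring_nf
      _ ≤ |η x| * |f x - f y| + |η x - η y| * |f y| := by
          exact (abs_add_le _ _).trans (by rw [abs_mul, abs_mul])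
      _ ≤ |C| * (K * dist x y) + L * dist x y * B :=
          add_le_add (mul_le_mul ((hC x hx).trans (le_abs_self C)) h1 (abs_nonneg _)
            (abs_nonneg _)) (mul_le_mul h2 (hB y) (abs_nonneg _) (by positivity))
      _ = _ := by ring
  · have hfx : f x = 0 := image_eq_zero_of_notMem_tsupport hx
    by_cases hy : y ∈ tsupport f
    · calc |η x * f x - η y * f y| = |η y| * |f x - f y| := by
            rw [hfx, ← abs_mul]; ring_nf
        _ ≤ |C| * (K * dist x y) :=
          mul_le_mul ((hC y hy).trans (le_abs_self C)) h1 (abs_nonneg _) (abs_nonneg _)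
        _ ≤ _ := by nlinarith [mul_nonneg (mul_nonneg L.coe_nonneg hB0) (dist_nonneg (x := x) (y := y))]
    · rw [hfx, image_eq_zero_of_notMem_tsupport hy]
      simp only [mul_zero, sub_self, abs_zero]
      positivity

theorem integrable_deriv3_sq {f : Space → ℝ} (hf : IsTest1 f) (a : Fin 3) :
    Integrable fun x => deriv3 a f x ^ 2 := by
  obtain ⟨K, hK⟩ := hf.lipschitz
  refine integrable_of_bound_tsupport hf.compact ((measurable_deriv3 a f).pow_const 2)
    (B := (K : ℝ) ^ 2) (fun x => ?_) (fun x hx => by simp [deriv3_eq_zero hx])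
  rw [abs_pow]
  exact pow_le_pow_left₀ (abs_nonneg _) (abs_deriv3_le hK a x) 2

theorem integrable_grad_sq {f : Space → ℝ} (hf : IsTest1 f) :
    Integrable fun x => ∑ a, deriv3 a f x ^ 2 :=
  integrable_finsetSum _ fun a _ => integrable_deriv3_sq hf a

theorem integrable_mul_test {f g : Space → ℝ} (hf : IsTest1 f) (hg : Continuous g) :
    Integrable fun x => g x * f x :=
  (hg.mul hf.continuous).integrable_of_hasCompactSupport hf.compact.mul_left

theorem integrable_sq {f : Space → ℝ} (hf : IsTest1 f) : Integrable fun x => f x ^ 2 := by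
  simpa [sq] using integrable_mul_test hf hf.continuous

theorem kin_nonneg (f : Space → ℝ) : 0 ≤ kin f :=
  integral_nonneg fun _ => Finset.sum_nonneg fun _ _ => sq_nonneg _

theorem sqn_nonneg (f : Space → ℝ) : 0 ≤ sqn f := integral_nonneg fun _ => sq_nonneg _

theorem integrableOn_inv_norm (p : Space) (r : ℝ) :
    IntegrableOn (fun x : Space => 1 / ‖x - p‖) (Metric.ball p r) := by
  have h0 : IntegrableOn (fun x : Space => 1 / ‖x‖) (Metric.ball 0 r) := by
    refine integrableOn_ball_of_norm_le_rpow (α := 1) (C := 1) (by simp) (by simp) ?_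
      (show Measurable fun x : Space => 1 / ‖x‖ by fun_prop).aestronglyMeasurable
    refine Eventually.of_forall fun x => ?_
    rw [Real.norm_eq_abs, abs_of_nonneg (by positivity), Real.rpow_neg_one, one_mul, one_div]
  have hmp : MeasurePreserving (fun x : Space => x - p) volume volume :=
    measurePreserving_sub_right volume p
  have he : MeasurableEmbedding (fun x : Space => x - p) :=
    (Homeomorph.subRight p).measurableEmbedding
  have := (hmp.integrableOn_comp_preimage he).2 h0
  refine this.mono_set fun x hx => ?_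
  simpa [dist_eq_norm] using hx

theorem integrable_div_norm {g : Space → ℝ} (hg : Continuous g) (hgc : HasCompactSupport g)
    (p : Space) : Integrable fun x => g x / ‖x - p‖ := by
  obtain ⟨R, hR⟩ := hgc.isBounded.subset_ball p
  obtain ⟨B, hB⟩ := hgc.exists_bound_of_continuous hg
  refine IntegrableOn.integrable_of_forall_notMem_eq_zero (s := Metric.ball p R) ?_ fun x hx => ?_
  · refine ((integrableOn_inv_norm p R).const_mul B).mono'
      (hg.measurable.div (by fun_prop)).aestronglyMeasurable (Eventually.of_forall fun x => ?_)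
    rw [norm_div, norm_norm, div_eq_mul_one_div]
    exact mul_le_mul_of_nonneg_right (hB x) (by positivity)
  · simp [image_eq_zero_of_notMem_tsupport fun h => hx (hR h)]

/-- A coordinate of the smoothed radial field about `p`. -/
def fld (p : Space) (c : ℝ) (a : Fin 3) (x : Space) : ℝ := (x - p) a / √(‖x - p‖ ^ 2 + c)

theorem hasFDerivAt_fld {p : Space} {c : ℝ} (hc : 0 < c) (a : Fin 3) (x : Space) :
    HasFDerivAt (fld p c a)
      ((√(‖x - p‖ ^ 2 + c))⁻¹ • (EuclideanSpace.proj a : Space →L[ℝ] ℝ) -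
        ((x - p) a / √(‖x - p‖ ^ 2 + c) ^ 3) • innerSL ℝ (x - p)) x := by
  have hw : HasFDerivAt (fun y : Space => y - p) (ContinuousLinearMap.id ℝ Space) x :=
    (hasFDerivAt_id x).sub_const p
  have hpos : 0 < ‖x - p‖ ^ 2 + c := by positivity
  have hs : √(‖x - p‖ ^ 2 + c) ≠ 0 := (Real.sqrt_pos.2 hpos).ne'
  have hn := (hw.norm_sq.add_const c).sqrt hpos.ne'
  have ha : HasFDerivAt (fun y => (y - p) a)
      ((EuclideanSpace.proj a : Space →L[ℝ] ℝ).comp (ContinuousLinearMap.id ℝ Space)) x :=
    ((EuclideanSpace.proj a : Space →L[ℝ] ℝ).hasFDerivAt).comp x hw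
  refine (ha.mul ((hasDerivAt_inv hs).comp_hasFDerivAt x hn)).congr_fderiv ?_
  ext v
  simp
  field_simp
  ring

theorem abs_fld_le_one {p : Space} {c : ℝ} (hc : 0 < c) (a : Fin 3) (x : Space) :
    |fld p c a x| ≤ 1 := by
  have hpos : 0 < ‖x - p‖ ^ 2 + c := by positivity
  rw [fld, abs_div, abs_of_nonneg (Real.sqrt_nonneg _), div_le_one (Real.sqrt_pos.2 hpos)]
  exact (PiLp.norm_apply_le (x - p) a).trans (Real.le_sqrt_of_sq_le (by linarith))

theorem lipschitz_fld {p : Space} {c : ℝ} (hc : 0 < c) (a : Fin 3) :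
    LipschitzWith (2 / √c).toNNReal (fld p c a) := by
  refine lipschitzWith_of_nnnorm_fderiv_le (fun x => (hasFDerivAt_fld hc a x).differentiableAt)
    fun x => ?_
  have hpos : 0 < ‖x - p‖ ^ 2 + c := by positivity
  set s := √(‖x - p‖ ^ 2 + c) with hs
  set w := x - p
  have hs0 : 0 < s := Real.sqrt_pos.2 hpos
  have hcs : √c ≤ s := Real.sqrt_le_sqrt (by linarith [sq_nonneg ‖w‖])
  have hws : ‖w‖ ≤ s := Real.le_sqrt_of_sq_le (by linarith)
  have hwa : |w a| ≤ s := (PiLp.norm_apply_le w a).trans hws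
  rw [← NNReal.coe_le_coe, coe_nnnorm, Real.coe_toNNReal _ (by positivity),
    (hasFDerivAt_fld hc a x).fderiv]
  refine ContinuousLinearMap.opNorm_le_bound _ (by positivity) fun v => ?_
  simp only [sub_apply, smul_apply, PiLp.proj_apply, innerSL_apply_apply, smul_eq_mul,
    Real.norm_eq_abs]
  have h1 : |v a| ≤ ‖v‖ := PiLp.norm_apply_le v a
  have h2 : |w a * ⟪w, v⟫| ≤ s ^ 2 * ‖v‖ := by
    rw [abs_mul, sq, mul_assoc]
    exact mul_le_mul hwa ((abs_real_inner_le_norm _ _).trans
      (mul_le_mul_of_nonneg_right hws (norm_nonneg _))) (abs_nonneg _) hs0.le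
  have e : s⁻¹ * v a - w a / s ^ 3 * ⟪w, v⟫ = (v a * s ^ 2 - w a * ⟪w, v⟫) / s ^ 3 := by
    field_simp
  rw [e, abs_div, abs_of_pos (pow_pos hs0 3)]
  calc |v a * s ^ 2 - w a * ⟪w, v⟫| / s ^ 3 ≤ 2 * (s ^ 2 * ‖v‖) / s ^ 3 := by
        gcongr
        refine (abs_sub _ _).trans ?_
        rw [abs_mul, abs_of_pos (pow_pos hs0 2)]
        nlinarith [sq_nonneg s]
    _ = 2 * ‖v‖ / s := by field_simp
    _ ≤ 2 * ‖v‖ / √c := by gcongr
    _ = 2 / √c * ‖v‖ := by ring

theorem divergence_fld {p : Space} {c : ℝ} (hc : 0 < c) (x : Space) :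
    ∑ a, deriv3 a (fld p c a) x =
      3 / √(‖x - p‖ ^ 2 + c) - ‖x - p‖ ^ 2 / √(‖x - p‖ ^ 2 + c) ^ 3 := by
  have hterm : ∀ a, deriv3 a (fld p c a) x = 1 / √(‖x - p‖ ^ 2 + c) -
      (x - p) a ^ 2 / √(‖x - p‖ ^ 2 + c) ^ 3 := by
    intro a
    rw [deriv3, (hasFDerivAt_fld hc a x).fderiv]
    simp [inner_unit3, unit3_apply]
    ring
  simp only [hterm, Finset.sum_sub_distrib, ← Finset.sum_div, ← EuclideanSpace.real_norm_sq_eq,
    Finset.sum_const, Finset.card_univ, Fintype.card_fin, nsmul_eq_mul]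
  push_cast
  ring

/-- Integration by parts. -/
theorem integral_deriv3_mul {K L : ℝ≥0} {F g : Space → ℝ} (hF : LipschitzWith K F)
    (hg : LipschitzWith L g) (hgc : HasCompactSupport g) (a : Fin 3) :
    ∫ x, deriv3 a F x * g x = -∫ x, F x * deriv3 a g x := by
  have h := LipschitzWith.integral_lineDeriv_mul_eq (μ := volume) hF hg hgc (unit3 a)
  rw [← integral_neg]
  calc ∫ x, deriv3 a F x * g x = ∫ x, lineDeriv ℝ F x (unit3 a) * g x := by
        refine integral_congr_ae ?_
        filter_upwards [hF.ae_differentiableAt (μ := volume)] with x hx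
        rw [hx.lineDeriv_eq_fderiv, deriv3]
    _ = _ := h
    _ = ∫ x, -(F x * deriv3 a g x) := by
        refine integral_congr_ae ?_
        filter_upwards [hg.ae_differentiableAt (μ := volume)] with x hx
        rw [hx.lineDeriv_eq_fderiv, deriv3, map_neg]
        ring

/-- The radial derivative of a function about `p`. -/
def radial (p : Space) (g : Space → ℝ) (x : Space) : ℝ :=
  ∑ a, (x - p) a / ‖x - p‖ * deriv3 a g x

/-- Integration by parts against the radial field: `div ((x-p)/|x-p|) = 2/|x-p|`. -/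
theorem integral_div_norm {g : Space → ℝ} (hg : IsTest1 g) (p : Space) :
    2 * ∫ x, g x / ‖x - p‖ = -∫ x, radial p g x := by
  obtain ⟨L, hL⟩ := hg.lipschitz
  set c : ℕ → ℝ := fun m => 1 / (m + 1 : ℝ) with hcdef
  have hc : ∀ m, 0 < c m := fun m => by rw [hcdef]; positivity
  have hcl : Tendsto c atTop (𝓝 0) := tendsto_one_div_add_atTop_nhds_zero_nat
  set A : ℕ → Space → ℝ := fun m x => (∑ a, deriv3 a (fld p (c m) a) x) * g x with hA
  set B : ℕ → Space → ℝ := fun m x => ∑ a, fld p (c m) a x * deriv3 a g x with hB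
  have hintA : ∀ m a, Integrable fun x => deriv3 a (fld p (c m) a) x * g x := fun m a => by
    refine integrable_of_bound_tsupport hg.compact
      ((measurable_deriv3 a _).mul hg.continuous.measurable)
      (B := (2 / √(c m)).toNNReal * hg.exists_bound.choose) (fun x => ?_)
      fun x hx => by simp [image_eq_zero_of_notMem_tsupport hx]
    rw [abs_mul]
    exact mul_le_mul (abs_deriv3_le (lipschitz_fld (hc m) a) a x)
      (hg.exists_bound.choose_spec.2 x) (abs_nonneg _) (NNReal.coe_nonneg _)
  have hintB : ∀ m a, Integrable fun x => fld p (c m) a x * deriv3 a g x := fun m a => by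
    refine integrable_of_bound_tsupport hg.compact
      ((lipschitz_fld (hc m) a).continuous.measurable.mul (measurable_deriv3 a g))
      (B := (L : ℝ)) (fun x => ?_) fun x hx => by simp [deriv3_eq_zero hx]
    rw [abs_mul]
    exact (mul_le_of_le_one_left (abs_nonneg _) (abs_fld_le_one (hc m) a x)).trans
      (abs_deriv3_le hL a x)
  have hAB : ∀ m, ∫ x, A m x = -∫ x, B m x := fun m => by
    simp only [hA, hB, Finset.sum_mul]
    rw [integral_finsetSum _ fun a _ => hintA m a, integral_finsetSum _ fun a _ => hintB m a,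
      ← Finset.sum_neg_distrib]
    exact Finset.sum_congr rfl fun a _ =>
      integral_deriv3_mul (lipschitz_fld (hc m) a) hL hg.compact a
  have hne : ∀ᵐ x : Space, x ≠ p := by
    rw [ae_iff]; simp
  have hsq : ∀ x, Tendsto (fun m => √(‖x - p‖ ^ 2 + c m)) atTop (𝓝 ‖x - p‖) := fun x => by
    have := (hcl.const_add (‖x - p‖ ^ 2)).sqrt
    rwa [add_zero, Real.sqrt_sq (norm_nonneg _)] at this
  have hlimA : Tendsto (fun m => ∫ x, A m x) atTop (𝓝 (∫ x, 2 * (g x / ‖x - p‖))) := by
    refine tendsto_integral_of_dominated_convergence (fun x => 3 * (|g x| / ‖x - p‖))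
      (fun m => ?_) ((integrable_div_norm hg.continuous.abs hg.compact.norm p).const_mul 3)
      (fun m => ?_) ?_
    · simp only [hA, Finset.sum_mul]
      exact (integrable_finsetSum _ fun a _ => hintA m a).aestronglyMeasurable
    · filter_upwards [hne] with x hx
      have hr : 0 < ‖x - p‖ := norm_pos_iff.2 (sub_ne_zero.2 hx)
      have hs : ‖x - p‖ ≤ √(‖x - p‖ ^ 2 + c m) := Real.le_sqrt_of_sq_le (by linarith [hc m])
      simp only [hA, norm_mul, Real.norm_eq_abs, divergence_fld (hc m)]
      have hs0 : 0 < √(‖x - p‖ ^ 2 + c m) := hr.trans_le hs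
      have h1 : ‖x - p‖ ^ 2 / √(‖x - p‖ ^ 2 + c m) ^ 3 ≤ 1 / √(‖x - p‖ ^ 2 + c m) := by
        rw [div_le_div_iff₀ (pow_pos hs0 3) hs0, one_mul]
        nlinarith [pow_le_pow_left₀ hr.le hs 2]
      have h2 : 3 / √(‖x - p‖ ^ 2 + c m) ≤ 3 / ‖x - p‖ := by gcongr
      have h3 : (0 : ℝ) ≤ ‖x - p‖ ^ 2 / √(‖x - p‖ ^ 2 + c m) ^ 3 := by positivity
      have h4 : 1 / √(‖x - p‖ ^ 2 + c m) ≤ 3 / √(‖x - p‖ ^ 2 + c m) := by gcongr; norm_num
      calc _ ≤ 3 / ‖x - p‖ * |g x| := by
            refine mul_le_mul_of_nonneg_right ?_ (abs_nonneg _)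
            rw [abs_of_nonneg (by linarith)]
            linarith
        _ = _ := by ring
    · filter_upwards [hne] with x hx
      have hr : ‖x - p‖ ≠ 0 := norm_ne_zero_iff.2 (sub_ne_zero.2 hx)
      simp only [hA, fun m => divergence_fld (p := p) (hc m) x]
      have ht : Tendsto (fun m => (3 / √(‖x - p‖ ^ 2 + c m) -
          ‖x - p‖ ^ 2 / √(‖x - p‖ ^ 2 + c m) ^ 3) * g x) atTop
          (𝓝 ((3 / ‖x - p‖ - ‖x - p‖ ^ 2 / ‖x - p‖ ^ 3) * g x)) :=
        ((tendsto_const_nhds.div (hsq x) hr).sub
          (tendsto_const_nhds.div ((hsq x).pow 3) (pow_ne_zero _ hr))).mul_const _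
      convert ht using 2
      field_simp
      ring
  have hlimB : Tendsto (fun m => ∫ x, B m x) atTop (𝓝 (∫ x, radial p g x)) := by
    refine tendsto_integral_of_dominated_convergence (fun x => ∑ a, |deriv3 a g x|)
      (fun m => (integrable_finsetSum _ fun a _ => hintB m a).aestronglyMeasurable)
      (integrable_finsetSum _ fun a _ => integrable_of_bound_tsupport hg.compact
        (measurable_deriv3 a g).abs (B := (L : ℝ)) (fun x => by
          rw [abs_abs]; exact abs_deriv3_le hL a x) fun x hx => by simp [deriv3_eq_zero hx])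
      (fun m => Eventually.of_forall fun x => ?_) ?_
    · refine (Finset.abs_sum_le_sum_abs _ _).trans (Finset.sum_le_sum fun a _ => ?_)
      rw [abs_mul]
      exact mul_le_of_le_one_left (abs_nonneg _) (abs_fld_le_one (hc m) a x)
    · filter_upwards [hne] with x hx
      have hr : ‖x - p‖ ≠ 0 := norm_ne_zero_iff.2 (sub_ne_zero.2 hx)
      exact tendsto_finsetSum _ fun a _ => (tendsto_const_nhds.div (hsq x) hr).mul_const _
  rw [← integral_const_mul]
  exact tendsto_nhds_unique hlimA (by simpa only [hAB] using hlimB.neg)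

end Vale.Agent.P363.One
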