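import Vale.Agent.P363.Exist.One.Minimiser

/-!
P363: the two-centre potential is locally square integrable, and the lowest states of the sectors
solve the weak equation.
-/

noncomputable section

namespace Vale.Agent.P363.One

open MeasureTheory Filter Set
open scoped BigOperators Topology NNReal RealInnerProductSpace

theorem integrableOn_inv_norm_sq (p : Space) (r : ℝ) :
    IntegrableOn (fun x : Space => (1 / ‖x - p‖) ^ 2) (Metric.ball p r) := by
  have h0 : IntegrableOn (fun x : Space => (1 / ‖x‖) ^ 2) (Metric.ball 0 r) := by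
    refine integrableOn_ball_of_norm_le_rpow (α := 2) (C := 1) (by simp) (by norm_num [finrank_euclideanSpace]) ?_
      (show Measurable fun x : Space => (1 / ‖x‖) ^ 2 by fun_prop).aestronglyMeasurable
    refine Eventually.of_forall fun x => ?_
    rw [Real.norm_eq_abs, abs_of_nonneg (by positivity), Real.rpow_neg (norm_nonneg x),
      Real.rpow_two, one_div, inv_pow, one_mul]
  have hmp : MeasurePreserving (fun x : Space => x - p) volume volume :=
    measurePreserving_sub_right volume p
  have he : MeasurableEmbedding (fun x : Space => x - p) :=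
    (Homeomorph.subRight p).measurableEmbedding
  refine ((hmp.integrableOn_comp_preimage he).2 h0).mono_set fun x hx => ?_
  simpa [dist_eq_norm] using hx

theorem memLp_pot (l : ℝ) {K : Set Space} (hK : IsCompact K) :
    MemLp (pot l) 2 (volume.restrict K) := by
  refine memLp_finsetSum Finset.univ fun j _ => ?_
  have hm : Measurable fun x : Space => 1 / ‖x - centre l j‖ := by fun_prop
  rw [memLp_two_iff_integrable_sq hm.aestronglyMeasurable]
  obtain ⟨R, hR⟩ := hK.isBounded.subset_ball (centre l j)
  exact (integrableOn_inv_norm_sq (centre l j) R).mono_set hR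

theorem memLp_pot_mul (l : ℝ) {η : Space → ℝ} (hη : Continuous η) (hc : HasCompactSupport η) :
    MemLp (fun x => pot l x * η x) 2 := by
  obtain ⟨B, hB⟩ := hc.exists_bound_of_continuous hη
  have hm : MeasurableSet (tsupport η) := (isClosed_tsupport η).measurableSet
  have h := ((memLp_indicator_iff_restrict hm).2 (memLp_pot l hc)).const_mul B
  refine h.mono ((measurable_pot l).mul hη.measurable).aestronglyMeasurable
    (Eventually.of_forall fun x => ?_)
  by_cases hx : x ∈ tsupport η
  · simp only [indicator_of_mem hx, norm_mul, mul_comm ‖B‖]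
    exact mul_le_mul_of_nonneg_left ((hB x).trans (le_abs_self B)) (norm_nonneg _)
  · rw [image_eq_zero_of_notMem_tsupport hx, mul_zero, norm_zero]
    exact norm_nonneg _

theorem qbil_add_smul (l : ℝ) {φ f g : Space → ℝ} (hφ : IsTest1 φ) (hf : IsTest1 f)
    (hg : IsTest1 g) (s t : ℝ) :
    qbil l φ (fun x => s * f x + t * g x) = s * qbil l φ f + t * qbil l φ g := by
  have i1 := integrable_deriv3_mul hφ hf
  have i2 := integrable_deriv3_mul hφ hg
  have j1 := integrable_pot_mul_mul l hφ hf
  have j2 := integrable_pot_mul_mul l hφ hg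
  obtain ⟨K, hK⟩ := hf.lipschitz
  obtain ⟨L, hL⟩ := hg.lipschitz
  have e1 : ∫ x, ∑ a, deriv3 a φ x * deriv3 a (fun x => s * f x + t * g x) x =
      s * (∫ x, ∑ a, deriv3 a φ x * deriv3 a f x) + t * ∫ x, ∑ a, deriv3 a φ x * deriv3 a g x := by
    rw [← integral_const_mul, ← integral_const_mul, ← integral_add (i1.const_mul _) (i2.const_mul _)]
    refine integral_congr_ae ?_
    filter_upwards [hK.ae_differentiableAt (μ := volume), hL.ae_differentiableAt (μ := volume)]
      with x hx hy
    simp only [Finset.mul_sum, ← Finset.sum_add_distrib]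
    refine Finset.sum_congr rfl fun a _ => ?_
    simp only [deriv3]
    rw [fderiv_fun_add (hx.const_mul s) (hy.const_mul t), fderiv_const_mul hx, fderiv_const_mul hy]
    simp only [add_apply, smul_apply, smul_eq_mul]
    ring
  have e2 : ∫ x, pot l x * (φ x * (s * f x + t * g x)) =
      s * (∫ x, pot l x * (φ x * f x)) + t * ∫ x, pot l x * (φ x * g x) := by
    rw [← integral_const_mul, ← integral_const_mul, ← integral_add (j1.const_mul _) (j2.const_mul _)]
    exact integral_congr_ae (Eventually.of_forall fun x => by ring)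
  simp only [qbil, e1, e2]
  ring

theorem qbil_comp_mirror (l : ℝ) {φ f : Space → ℝ} (hφ : IsTest1 φ) (hf : IsTest1 f) {σ : ℝ}
    (hσ : σ ^ 2 = 1) (hp : Parity σ φ) :
    qbil l φ (fun x => f (mirror x)) = σ * qbil l φ f := by
  have h1 := qform_add_smul l hφ hf.comp_mirror σ 1
  have h2 := qform_add_smul l hφ hf 1 1
  rw [show (fun x => σ * φ x + 1 * f (mirror x)) =
    fun x => (fun y => 1 * φ y + 1 * f y) (mirror x) from funext fun x => by
      simp only [one_mul, hp x], qform_comp_mirror l fun y => 1 * φ y + 1 * f y,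
    qform_comp_mirror l f, h2, hσ] at h1
  have h : σ * qbil l φ (fun x => f (mirror x)) = qbil l φ f := by linarith
  linear_combination σ * h - qbil l φ (fun x => f (mirror x)) * hσ

/-- For smooth test functions the bilinear form moves the derivatives onto them. -/
theorem qbil_bump (l : ℝ) {φ η : Space → ℝ} (hφ : IsTest1 φ) (hη : IsBump Set.univ η) :
    qbil l φ η = -(ip (lap η) φ) / 2 - ip (fun x => pot l x * η x) φ := by
  obtain ⟨K, hK⟩ := hφ.lipschitz
  have hd : ∀ a, ContDiff ℝ 1 (deriv3 a η) := fun a =>
    (hη.smooth.fderiv_right (WithTop.coe_le_coe.2 (le_top : (1 + 1 : ℕ∞) ≤ ⊤))).clm_apply contDiff_const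
  have hc : ∀ a, HasCompactSupport (deriv3 a η) := fun a => hη.compact.fderiv_apply ℝ _
  have hL := fun a => (hd a).lipschitzWith_of_hasCompactSupport (hc a) one_ne_zero
  have hibp : ∀ a, ∫ x, deriv3 a φ x * deriv3 a η x = -∫ x, deriv3 a (deriv3 a η) x * φ x :=
    fun a => by
      obtain ⟨L, hL'⟩ := hL a
      rw [integral_deriv3_mul hK hL' (hc a) a]
      simp only [mul_comm (φ _)]
  have h2c : ∀ a, Continuous (deriv3 a (deriv3 a η)) := fun a =>
    ((hd a).continuous_fderiv one_ne_zero).clm_apply continuous_const
  have hiη : ∀ a, Integrable fun x => deriv3 a φ x * deriv3 a η x := fun a => by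
    obtain ⟨B, hB⟩ := (hc a).exists_bound_of_continuous (hd a).continuous
    refine integrable_of_bound_tsupport hφ.compact
      ((measurable_deriv3 a φ).mul (hd a).continuous.measurable) (B := K * B) (fun x => ?_)
      fun x hx => by simp [deriv3_eq_zero hx]
    rw [abs_mul]
    exact mul_le_mul (abs_deriv3_le hK a x) (by simpa using hB x) (abs_nonneg _) K.coe_nonneg
  simp only [qbil, ip, lap, Finset.sum_mul]
  rw [integral_finsetSum _ fun a _ => hiη a,
    integral_finsetSum _ fun a _ => integrable_mul_test hφ (h2c a), ← Finset.sum_neg_distrib]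
  simp only [hibp]
  congr 1
  exact integral_congr_ae (Eventually.of_forall fun x => by ring)

theorem memLp_lap {η : Space → ℝ} (hη : IsBump Set.univ η) : MemLp (lap η) 2 := by
  have hd : ∀ a, ContDiff ℝ 1 (deriv3 a η) := fun a =>
    (hη.smooth.fderiv_right (WithTop.coe_le_coe.2 (le_top : (1 + 1 : ℕ∞) ≤ ⊤))).clm_apply contDiff_const
  refine memLp_finsetSum Finset.univ fun a _ => ?_
  exact (((hd a).continuous_fderiv one_ne_zero).clm_apply
    continuous_const).memLp_of_hasCompactSupport ((hη.compact.fderiv_apply ℝ _).fderiv_apply ℝ _)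

theorem isTest1_bump {η : Space → ℝ} (hη : IsBump Set.univ η) : IsTest1 η :=
  ⟨(hη.smooth.of_le (WithTop.coe_le_coe.2 (le_top : (1 : ℕ∞) ≤ ⊤))).lipschitzWith_of_hasCompactSupport
    hη.compact one_ne_zero, hη.compact⟩

theorem locallyIntegrable_pot_mul (l : ℝ) {g : Space → ℝ} (hg : MemLp g 2) :
    LocallyIntegrable (fun x => pot l x * g x) := by
  rw [locallyIntegrable_iff]
  intro K hK
  exact (memLp_pot l hK).integrable_mul (hg.restrict K)

/-- The lowest state of a sector solves the equation. -/
theorem IsSectorMin.weakPoisson {l σ e : ℝ} {g : Space → ℝ} (hg : IsSectorMin l σ e g)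
    (hσ : σ ^ 2 = 1) :
    WeakPoisson Set.univ g fun x => -2 * (pot l x + e) * g x := by
  have hgl : LocallyIntegrable g := hg.memLp.locallyIntegrable (by norm_num)
  have hpl := locallyIntegrable_pot_mul l hg.memLp
  refine ⟨hgl.locallyIntegrableOn _, ?_, fun η hη => ?_⟩
  · have : LocallyIntegrable fun x => (-2 : ℝ) • (pot l x * g x + e • g x) :=
      (hpl.add (hgl.smul e)).smul (-2 : ℝ)
    refine (this.congr (Eventually.of_forall fun x => ?_)).locallyIntegrableOn _
    simp only [smul_eq_mul]
    ring
  obtain ⟨φ, hφ, hq, hlim⟩ := hg.limit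
  have ht := isTest1_bump hη
  have hφm := fun k => (hφ k).1.memLp
  have hpe := memLp_pot_mul l ht.continuous ht.compact
  have hzero : Tendsto (fun k => qbil l (φ k) η - e * ip (φ k) η) atTop (𝓝 0) := by
    have h := tendsto_qbil hg.lower hφ hq (isTest1_part ht σ) (parity_part hσ η)
    refine h.congr fun k => ?_
    have hp : Parity σ (φ k) := (hφ k).2.2
    have e1 : ip (φ k) (part σ η) = ip (φ k) η :=
      ip_part hσ (hφm k) ht (Eventually.of_forall hp)
    rw [e1]
    unfold part
    rw [qbil_add_smul l (hφ k).1 ht ht.comp_mirror, qbil_comp_mirror l (hφ k).1 ht hσ hp]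
    linear_combination (qbil l (φ k) η / 2) * hσ
  have hT : Tendsto (fun k => qbil l (φ k) η - e * ip (φ k) η) atTop
      (𝓝 (-(ip (lap η) g) / 2 - ip (fun x => pot l x * η x) g - e * ip η g)) := by
    simp only [fun k => qbil_bump l (hφ k).1 hη, fun k => ip_comm (φ k) η]
    exact ((((tendsto_ip hφm hg.memLp (memLp_lap hη) hlim).neg).div_const 2).sub
      (tendsto_ip hφm hg.memLp hpe hlim)).sub
      ((tendsto_ip hφm hg.memLp ht.memLp hlim).const_mul e)
  have h0 := tendsto_nhds_unique hT hzero
  have i1 : Integrable fun x => pot l x * η x * g x := hpe.integrable_mul hg.memLp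
  have i2 : Integrable fun x => η x * g x := ht.memLp.integrable_mul hg.memLp
  calc ∫ x, g x * lap η x = ip (lap η) g := by
        rw [ip_comm]; rfl
    _ = -2 * ip (fun x => pot l x * η x) g + -2 * (e * ip η g) := by linarith
    _ = _ := by
        simp only [ip]
        rw [← integral_const_mul, ← integral_const_mul e, ← integral_const_mul,
          ← integral_add (i1.const_mul _) ((i2.const_mul e).const_mul _)]
        exact integral_congr_ae (Eventually.of_forall fun x => by ring)

end Vale.Agent.P363.One
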