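import Vale.Agent.P363.Exist.One.Potential
import Vale.Agent.P349.CubeSlice

/-!
P363: the hydrogen atom: the ground-state identity
`qH f + |f|²/2 = ½ ∫ |∇f + (x/|x|) f|²` and a gap above `-1/2` off one direction.
-/

noncomputable section

namespace Vale.Agent.P363.One

open MeasureTheory Filter Set
open scoped BigOperators Topology NNReal RealInnerProductSpace

/-- The hydrogen quadratic form. -/
def qH (f : Space → ℝ) : ℝ := kin f / 2 - ∫ x, f x ^ 2 / ‖x‖

/-- `∫ |∇f + (x/|x|) f|²`. -/
def excess (f : Space → ℝ) : ℝ := ∫ x, ∑ a, (deriv3 a f x + x a / ‖x‖ * f x) ^ 2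

theorem sum_unit_sq {x : Space} (hx : x ≠ 0) : ∑ a, (x a / ‖x‖) ^ 2 = 1 := by
  simp only [div_pow, ← Finset.sum_div, ← EuclideanSpace.real_norm_sq_eq]
  exact div_self (pow_ne_zero _ (norm_ne_zero_iff.2 hx))

theorem ae_ne (p : Space) : ∀ᵐ x : Space, x ≠ p := by rw [ae_iff]; simp

theorem excess_expand {f : Space → ℝ} (x : Space) (hx : x ≠ 0) :
    ∑ a, (deriv3 a f x + x a / ‖x‖ * f x) ^ 2 =
      (∑ a, deriv3 a f x ^ 2) + 2 * (f x * radial 0 f x) + f x ^ 2 := by
  have h := sum_unit_sq hx
  simp only [add_sq, mul_pow, Finset.sum_add_distrib, ← Finset.sum_mul, h, one_mul, radial,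
    sub_zero, Finset.mul_sum]
  congr 2
  exact Finset.sum_congr rfl fun a _ => by ring

theorem integrable_f_radial {f : Space → ℝ} (hf : IsTest1 f) :
    Integrable (fun x => f x * radial 0 f x) ∧
      ∫ x, f x * radial 0 f x = -∫ x, f x ^ 2 / ‖x‖ := by
  obtain ⟨K, hK⟩ := hf.lipschitz
  have he : (fun x => f x * radial 0 f x) =ᵐ[volume]
      fun x => (1 / 2 : ℝ) * radial 0 (fun y => f y ^ 2) x := by
    filter_upwards [hK.ae_differentiableAt (μ := volume)] with x hx
    rw [funext fun y => pow_two (f y), radial_mul hx hx]; ring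
  refine ⟨((integrable_radial hf.sq 0).const_mul _).congr he.symm, ?_⟩
  rw [integral_congr_ae he, integral_const_mul]
  have := integral_div_norm hf.sq (0 : Space)
  simp only [sub_zero] at this
  linarith

theorem qH_eq {f : Space → ℝ} (hf : IsTest1 f) : qH f + sqn f / 2 = excess f / 2 := by
  obtain ⟨hi, hr⟩ := integrable_f_radial hf
  have e : excess f =
      1 * kin f + 2 * (∫ x, f x * radial 0 f x) + 1 * sqn f := by
    simp only [excess, kin, sqn]
    rw [integral_lin3 (integrable_grad_sq hf) hi (integrable_sq hf)]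
    refine integral_congr_ae ?_
    filter_upwards [ae_ne 0] with x hx
    rw [excess_expand x hx, one_mul, one_mul]
  rw [hr] at e
  rw [qH]; linarith

theorem excess_nonneg (f : Space → ℝ) : 0 ≤ excess f :=
  integral_nonneg fun _ => Finset.sum_nonneg fun _ _ => sq_nonneg _

theorem qH_ge {f : Space → ℝ} (hf : IsTest1 f) : -(sqn f / 2) ≤ qH f := by
  linarith [qH_eq hf, excess_nonneg f]

theorem integrable_excess {f : Space → ℝ} (hf : IsTest1 f) :
    Integrable fun x => ∑ a, (deriv3 a f x + x a / ‖x‖ * f x) ^ 2 := by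
  refine (((integrable_grad_sq hf).add ((integrable_f_radial hf).1.const_mul 2)).add
    (integrable_sq hf)).congr ?_
  filter_upwards [ae_ne 0] with x hx
  rw [excess_expand x hx]
  rfl

/-- Cut-off equal to `1` for `‖x‖ ≤ 8` and to `0` for `16 ≤ ‖x‖`. -/
def cut8 (x : Space) : ℝ := max 0 (min 1 (2 - ‖x‖ / 8))

theorem lipschitz_cut8 : LipschitzWith 1 cut8 := by
  refine LipschitzWith.of_dist_le' (K := 1) (fun x y => ?_) |>.weaken (by simp)
  rw [Real.dist_eq, one_mul, dist_eq_norm, cut8, cut8]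
  refine (abs_max_sub_max_le_max _ _ _ _).trans ?_
  rw [sub_self, abs_zero, max_eq_right (abs_nonneg _)]
  refine (abs_min_sub_min_le_max _ _ _ _).trans ?_
  rw [sub_self, abs_zero, max_eq_right (abs_nonneg _)]
  have := abs_norm_sub_norm_le x y
  rw [abs_le] at this ⊢
  constructor <;> linarith [norm_nonneg (x - y)]

theorem cut8_mem (x : Space) : 0 ≤ cut8 x ∧ cut8 x ≤ 1 :=
  ⟨le_max_left _ _, max_le zero_le_one (min_le_left _ _)⟩

theorem sq_div_norm_le (f : Space → ℝ) (x : Space) :
    f x ^ 2 / ‖x‖ ≤ f x ^ 2 / 8 + (cut8 x * f x) ^ 2 / ‖x‖ := by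
  rcases le_total ‖x‖ 8 with h | h
  · have : cut8 x = 1 := by rw [cut8, min_eq_left (by linarith), max_eq_right zero_le_one]
    rw [this, one_mul]
    linarith [div_nonneg (sq_nonneg (f x)) (by norm_num : (0 : ℝ) ≤ 8)]
  · have : f x ^ 2 / ‖x‖ ≤ f x ^ 2 / 8 := by gcongr
    linarith [div_nonneg (sq_nonneg (cut8 x * f x)) (norm_nonneg x)]

theorem kin_mul_le {f η : Space → ℝ} (hf : IsTest1 f) {L : ℝ≥0} (hη : LipschitzWith L η)
    (hη1 : ∀ x, |η x| ≤ 1) : kin (fun x => η x * f x) ≤ 2 * kin f + 6 * (L : ℝ) ^ 2 * sqn f := by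
  obtain ⟨K, hK⟩ := hf.lipschitz
  simp only [kin, sqn]
  rw [← integral_const_mul, ← integral_const_mul,
    ← integral_add ((integrable_grad_sq hf).const_mul _) ((integrable_sq hf).const_mul _)]
  refine integral_mono_ae (integrable_grad_sq (hf.mul hη))
    (((integrable_grad_sq hf).const_mul _).add ((integrable_sq hf).const_mul _)) ?_
  filter_upwards [hK.ae_differentiableAt (μ := volume), hη.ae_differentiableAt (μ := volume)]
    with x hx hy
  have h : ∀ a, deriv3 a (fun y => η y * f y) x ^ 2 ≤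
      2 * deriv3 a f x ^ 2 + 2 * ((L : ℝ) ^ 2 * f x ^ 2) := by
    intro a
    rw [deriv3_mul hy hx]
    refine add_sq_le.trans ?_
    rw [mul_pow, mul_pow, mul_add, mul_comm (f x ^ 2)]
    refine add_le_add (mul_le_mul_of_nonneg_left (mul_le_of_le_one_left (sq_nonneg _) ?_)
      zero_le_two) (mul_le_mul_of_nonneg_left (mul_le_mul_of_nonneg_right ?_ (sq_nonneg _))
      zero_le_two)
    · rw [← sq_abs]; exact pow_le_one₀ (abs_nonneg _) (hη1 x)
    · rw [← sq_abs (deriv3 a η x)]; exact pow_le_pow_left₀ (abs_nonneg _) (abs_deriv3_le hη a x) 2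
  refine (Finset.sum_le_sum fun a _ => h a).trans (le_of_eq ?_)
  rw [Finset.sum_add_distrib, ← Finset.mul_sum, Finset.sum_const, Finset.card_univ,
    Fintype.card_fin, nsmul_eq_mul]
  push_cast
  ring

theorem sqn_le_excess {f : Space → ℝ} (hf : IsTest1 f) :
    sqn f ≤ 4 * excess f + 100 * sqn (fun x => cut8 x * f x) := by
  obtain ⟨hi, hr⟩ := integrable_f_radial hf
  have hG := integrable_grad_sq hf
  have hF := integrable_sq hf
  have hC : Integrable fun x => f x ^ 2 / ‖x‖ := by
    simpa using integrable_div_norm hf.sq.continuous hf.sq.compact (0 : Space)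
  have hη := hf.mul lipschitz_cut8
  have hCc : Integrable fun x => (cut8 x * f x) ^ 2 / ‖x‖ := by
    simpa using integrable_div_norm hη.sq.continuous hη.sq.compact (0 : Space)
  have h1 : 3 / 4 * sqn f ≤ (∫ x, f x ^ 2 / ‖x‖) + excess f := by
    suffices sqn f + ∫ x, f x * radial 0 f x ≤ excess f + 1 / 4 * sqn f by
      rw [hr] at this; linarith
    simp only [sqn, excess]
    rw [← integral_const_mul, ← integral_add hF hi,
      ← integral_add (integrable_excess hf) (hF.const_mul _)]
    refine integral_mono_ae (hF.add hi) ((integrable_excess hf).add (hF.const_mul _)) ?_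
    filter_upwards [ae_ne 0] with x hx
    rw [excess_expand x hx]
    have := radial_sq_le 0 f x
    nlinarith [sq_nonneg (f x + radial 0 f x - f x / 2)]
  have h2 : kin f ≤ 2 * excess f + 2 * sqn f := by
    simp only [kin, sqn, excess]
    rw [← integral_const_mul, ← integral_const_mul,
      ← integral_add ((integrable_excess hf).const_mul _) (hF.const_mul _)]
    refine integral_mono_ae hG (((integrable_excess hf).const_mul _).add (hF.const_mul _)) ?_
    filter_upwards [ae_ne 0] with x hx
    rw [excess_expand x hx]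
    have := radial_sq_le 0 f x
    nlinarith [sq_nonneg (radial 0 f x + 2 * f x)]
  have h3 : ∫ x, f x ^ 2 / ‖x‖ ≤ sqn f / 8 + ∫ x, (cut8 x * f x) ^ 2 / ‖x‖ := by
    simp only [sqn]
    rw [← integral_div, ← integral_add (hF.div_const _) hCc]
    exact integral_mono hC ((hF.div_const _).add hCc) fun x => sq_div_norm_le f x
  have h4 := coulomb_le hη (0 : Space) (show (0 : ℝ) < 1 / 100 by norm_num)
  simp only [sub_zero] at h4
  have h5 := kin_mul_le hf lipschitz_cut8 fun x => by
    rw [abs_of_nonneg (cut8_mem x).1]; exact (cut8_mem x).2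
  norm_num at h4 h5
  linarith [excess_nonneg f, sqn_nonneg fun x => cut8 x * f x]

/-- The cube `[-16, 16)³`. -/
def box16 : Set Space := P349.cube (WithLp.toLp 2 fun _ => -16) 32

theorem norm_lt_of_mem_box16 {x : Space} (hx : x ∈ box16) : ‖x‖ < 28 := by
  have h : ∀ a, x a ^ 2 ≤ 256 := fun a => by
    have h1 := (hx a).1
    have h2 := (hx a).2
    simp only at h1 h2
    nlinarith
  have hs : ‖x‖ ^ 2 ≤ 768 := by
    rw [EuclideanSpace.real_norm_sq_eq]
    exact (Finset.sum_le_sum fun a _ => h a).trans (by norm_num)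
  nlinarith [norm_nonneg x]

theorem mem_box16 {x : Space} (hx : ‖x‖ < 16) : x ∈ box16 := by
  intro a
  have := abs_lt.1 ((PiLp.norm_apply_le x a).trans_lt hx)
  simp only
  constructor <;> linarith

/-- `exp ‖x‖`, truncated to be Lipschitz. -/
def grow (x : Space) : ℝ := Real.exp (min ‖x‖ 28)

theorem lipschitz_grow : ∃ L : ℝ≥0, LipschitzWith L grow := by
  have h1 : LipschitzOnWith ‖Real.exp 28‖₊ Real.exp (Iic 28) := by
    refine (convex_Iic (28 : ℝ)).lipschitzOnWith_of_nnnorm_deriv_le
      (fun x _ => Real.differentiableAt_exp) fun x hx => ?_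
    rw [Real.deriv_exp, ← NNReal.coe_le_coe, coe_nnnorm, coe_nnnorm, Real.norm_eq_abs,
      Real.norm_eq_abs, abs_of_pos (Real.exp_pos _), abs_of_pos (Real.exp_pos _)]
    exact Real.exp_le_exp.2 hx
  have h2 : LipschitzWith 1 fun x : Space => min ‖x‖ 28 := lipschitzWith_one_norm.min_const 28
  refine ⟨‖Real.exp 28‖₊ * 1, lipschitzOnWith_univ.1 ?_⟩
  exact h1.comp h2.lipschitzOnWith fun x _ => mem_Iic.2 (min_le_right _ _)

theorem deriv3_grow_mul {f : Space → ℝ} {x : Space} (hf : DifferentiableAt ℝ f x) (h0 : x ≠ 0)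
    (hx : ‖x‖ < 28) (a : Fin 3) :
    deriv3 a (fun y => grow y * f y) x = grow x * (deriv3 a f x + x a / ‖x‖ * f x) := by
  have he : (fun y : Space => min ‖y‖ 28) =ᶠ[𝓝 x] fun y => ‖y‖ := by
    filter_upwards [continuous_norm.continuousAt.preimage_mem_nhds (Iio_mem_nhds hx)] with y hy
    exact min_eq_left (le_of_lt hy)
  have hn : HasFDerivAt (fun y : Space => ‖y‖) (‖x‖⁻¹ • innerSL ℝ x) x := by
    have := ((hasFDerivAt_id x).norm_sq).sqrt (pow_ne_zero 2 (norm_ne_zero_iff.2 h0))
    simp only [id, Real.sqrt_sq (norm_nonneg _), ContinuousLinearMap.comp_id] at this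
    refine this.congr_fderiv ?_
    ext v
    simp
    ring
  have hg : HasFDerivAt grow (Real.exp (min ‖x‖ 28) • ‖x‖⁻¹ • innerSL ℝ x) x :=
    (hn.congr_of_eventuallyEq he).exp
  rw [deriv3_mul hg.differentiableAt hf, deriv3, deriv3, hg.fderiv]
  simp [inner_unit3, grow]
  ring

/-- A gap of the hydrogen atom above `-1/2` off one direction. -/
theorem hydrogen_gap : ∃ γ : ℝ, 0 < γ ∧ ∃ ξ : Space → ℝ, MemLp ξ 2 ∧
    ∀ f, IsTest1 f → (-1 / 2 + γ) * sqn f - ip ξ f ^ 2 ≤ qH f := by
  obtain ⟨L, hL⟩ := lipschitz_grow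
  set E : ℝ := Real.exp 28 ^ 2 with hE
  have hE1 : 1 ≤ E := one_le_pow₀ (Real.one_le_exp (by norm_num))
  set C : ℝ := 4 + 100 * (1536 * E) with hC
  have hC0 : 0 < C := by rw [hC]; positivity
  set c : ℝ := √(100 / 32 ^ 3 / (2 * C)) with hc
  refine ⟨1 / (2 * C), by positivity, fun x => c * box16.indicator grow x, ?_, fun f hf => ?_⟩
  · refine MemLp.const_mul ?_ c
    have hvol : volume box16 ≠ ⊤ := by
      rw [box16, P349.volume_cube]; exact ENNReal.pow_ne_top ENNReal.ofReal_ne_top
    refine (memLp_indicator_iff_restrict (P349.measurableSet_cube _ _)).2 ?_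
    have : IsFiniteMeasure (volume.restrict (P349.cube (WithLp.toLp 2 fun _ : Fin 3 => (-16 : ℝ)) 32)) :=
      isFiniteMeasure_restrict.2 hvol
    refine MemLp.of_bound hL.continuous.aestronglyMeasurable (Real.exp 28)
      (Eventually.of_forall fun x => ?_)
    rw [grow, Real.norm_eq_abs, abs_of_pos (Real.exp_pos _)]
    exact Real.exp_le_exp.2 (min_le_right _ _)
  obtain ⟨K, hK⟩ := hf.lipschitz
  have hu := hf.mul hL
  obtain ⟨Lu, hLu⟩ := hu.lipschitz
  obtain ⟨B, -, hB⟩ := hu.exists_bound
  set v : Space → ℂ := fun y => ((grow y * f y : ℝ) : ℂ) with hv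
  have hvL : LipschitzWith (‖Complex.ofRealCLM‖₊ * Lu) v := Complex.ofRealCLM.lipschitz.comp hLu
  have hp : ∫ y, box16.indicator (fun y => ‖v y‖ ^ 2) y ≤
      ‖∫ y, box16.indicator v y‖ ^ 2 / 32 ^ 3 + 3 / 2 * 32 ^ 2 * ∑ a : Fin 3, ∫ y : Space,
        box16.indicator (fun y => ‖lineDeriv ℝ v y (EuclideanSpace.single a (1 : ℝ))‖ ^ 2) y :=
    P349.poincare_cube hvL (B0 := B) (fun y => by
    rw [hv, Complex.norm_real]; exact hB y) (WithLp.toLp 2 fun _ => -16)
    (show (0 : ℝ) < 32 by norm_num)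
  have hbox : MeasurableSet box16 := P349.measurableSet_cube _ _
  have h1 : sqn (fun x => cut8 x * f x) ≤ ∫ y, box16.indicator (fun y => ‖v y‖ ^ 2) y := by
    refine integral_mono (integrable_sq (hf.mul lipschitz_cut8)) ?_ fun x => ?_
    · refine ((integrable_sq hu).congr (Eventually.of_forall fun y => ?_)).indicator hbox
      simp [hv, Complex.norm_real, mul_pow, sq_abs]
    · simp only
      by_cases hx : x ∈ box16
      · rw [indicator_of_mem hx, hv, Complex.norm_real, Real.norm_eq_abs, sq_abs]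
        rw [mul_pow, mul_pow]
        refine mul_le_mul_of_nonneg_right ?_ (sq_nonneg _)
        have : cut8 x ≤ grow x :=
          (cut8_mem x).2.trans (Real.one_le_exp (le_min (norm_nonneg _) (by norm_num)))
        exact pow_le_pow_left₀ (cut8_mem x).1 this 2
      · have : 16 ≤ ‖x‖ := not_lt.1 fun h => hx (mem_box16 h)
        have h0 : cut8 x = 0 := by rw [cut8]; exact max_eq_left ((min_le_right _ _).trans (by linarith))
        simp [indicator_of_notMem hx, h0]
  have h2 : ∑ a : Fin 3, ∫ y, box16.indicator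
      (fun y => ‖lineDeriv ℝ v y (EuclideanSpace.single a (1 : ℝ))‖ ^ 2) y ≤ E * excess f := by
    have hint : ∀ a : Fin 3, Integrable (box16.indicator
        (fun y => ‖lineDeriv ℝ v y (EuclideanSpace.single a (1 : ℝ))‖ ^ 2)) := fun a => by
      refine IntegrableOn.integrable_indicator ?_ hbox
      refine Measure.integrableOn_of_bounded (by
        rw [box16, P349.volume_cube]; exact ENNReal.pow_ne_top ENNReal.ofReal_ne_top)
        ((measurable_lineDeriv hvL.continuous).norm.pow_const 2).aestronglyMeasurable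
        (M := ((‖Complex.ofRealCLM‖₊ * Lu : ℝ≥0) * ‖EuclideanSpace.single a (1 : ℝ)‖) ^ 2)
        (Eventually.of_forall fun y => ?_)
      rw [norm_pow, norm_norm]
      exact pow_le_pow_left₀ (norm_nonneg _) (norm_lineDeriv_le_of_lipschitz ℝ hvL) 2
    rw [← integral_finsetSum _ fun a _ => hint a, excess, ← integral_const_mul]
    refine integral_mono_ae (integrable_finsetSum _ fun a _ => hint a)
      ((integrable_excess hf).const_mul _) ?_
    filter_upwards [hK.ae_differentiableAt (μ := volume), ae_ne 0,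
      hLu.ae_differentiableAt (μ := volume)] with x hx h0 hxu
    by_cases hb : x ∈ box16
    · simp only [indicator_of_mem hb, Finset.mul_sum]
      refine Finset.sum_le_sum fun a _ => ?_
      have hd : HasFDerivAt v (Complex.ofRealCLM.comp (fderiv ℝ (fun y => grow y * f y) x)) x :=
        Complex.ofRealCLM.hasFDerivAt.comp x hxu.hasFDerivAt
      rw [hd.differentiableAt.lineDeriv_eq_fderiv, hd.fderiv]
      simp only [ContinuousLinearMap.coe_comp, Function.comp_apply, Complex.ofRealCLM_apply,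
        Complex.norm_real, Real.norm_eq_abs, sq_abs]
      rw [show fderiv ℝ (fun y => grow y * f y) x (EuclideanSpace.single a (1 : ℝ)) =
        deriv3 a (fun y => grow y * f y) x from rfl,
        deriv3_grow_mul hx h0 (norm_lt_of_mem_box16 hb), mul_pow]
      refine mul_le_mul_of_nonneg_right ?_ (sq_nonneg _)
      exact pow_le_pow_left₀ (Real.exp_pos _).le (Real.exp_le_exp.2 (min_le_right _ _)) 2
    · simp only [indicator_of_notMem hb, Finset.sum_const_zero]
      exact mul_nonneg (by positivity) (Finset.sum_nonneg fun _ _ => sq_nonneg _)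
  have h3 : ‖∫ y, box16.indicator v y‖ ^ 2 = (∫ y, box16.indicator grow y * f y) ^ 2 := by
    have : ∀ y, box16.indicator v y = ((box16.indicator grow y * f y : ℝ) : ℂ) := fun y => by
      by_cases hb : y ∈ box16 <;> simp [hb, hv]
    simp only [this]
    rw [integral_complex_ofReal, Complex.norm_real, Real.norm_eq_abs, sq_abs]
  rw [h3] at hp
  have hip : ip (fun x => c * box16.indicator grow x) f ^ 2 =
      100 / 32 ^ 3 / (2 * C) * (∫ y, box16.indicator grow y * f y) ^ 2 := by
    simp only [ip, mul_assoc]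
    rw [integral_const_mul, mul_pow, hc, Real.sq_sqrt (by positivity)]
  have key : sqn f ≤ C * excess f + 100 / 32 ^ 3 * (∫ y, box16.indicator grow y * f y) ^ 2 := by
    have := sqn_le_excess hf
    rw [hC]
    have hp' : ∫ y, box16.indicator (fun y => ‖v y‖ ^ 2) y ≤
        (∫ y, box16.indicator grow y * f y) ^ 2 / 32 ^ 3 + 1536 * (E * excess f) := by
      refine hp.trans ?_
      norm_num
      exact h2
    linarith
  rw [hip]
  have e := qH_eq hf
  have k2 : sqn f / (2 * C) ≤ excess f / 2 +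
      100 / 32 ^ 3 / (2 * C) * (∫ y, box16.indicator grow y * f y) ^ 2 := by
    rw [div_le_iff₀ (by positivity)]
    refine key.trans (le_of_eq ?_)
    field_simp
  rw [show (-1 / 2 + 1 / (2 * C)) * sqn f = -(sqn f / 2) + sqn f / (2 * C) by ring]
  linarith

end Vale.Agent.P363.One
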