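import Mathlib

/-!
P363: limits in mean square of sequences that are almost minimising for a quadratic form which
is coercive off finitely many directions.
-/

noncomputable section

namespace Vale.Agent.P363.One

open MeasureTheory Filter
open scoped BigOperators Topology RealInnerProductSpace

variable {X : Type*} [MeasurableSpace X] {μ : Measure X}

theorem norm_toLp_sq {f : X → ℝ} (hf : MemLp f 2 μ) : ‖hf.toLp f‖ ^ 2 = ∫ x, f x ^ 2 ∂μ := by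
  rw [← real_inner_self_eq_norm_sq, L2.inner_def]
  refine integral_congr_ae ?_
  filter_upwards [hf.coeFn_toLp] with x hx
  rw [hx, real_inner_self_eq_norm_sq, Real.norm_eq_abs, sq_abs]

theorem inner_toLp {f g : X → ℝ} (hf : MemLp f 2 μ) (hg : MemLp g 2 μ) :
    ⟪hf.toLp f, hg.toLp g⟫ = ∫ x, f x * g x ∂μ := by
  rw [L2.inner_def]
  refine integral_congr_ae ?_
  filter_upwards [hf.coeFn_toLp, hg.coeFn_toLp] with x hx hy
  rw [hx, hy]
  simp [mul_comm]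

theorem norm_toLp_sub_sq {f g : X → ℝ} (hf : MemLp f 2 μ) (hg : MemLp g 2 μ) :
    ‖hf.toLp f - hg.toLp g‖ ^ 2 = ∫ x, (f x - g x) ^ 2 ∂μ := by
  rw [← MemLp.toLp_sub, norm_toLp_sq]
  rfl

theorem tendsto_toLp_iff {φ : ℕ → X → ℝ} (hφ : ∀ k, MemLp (φ k) 2 μ) {g : X → ℝ}
    (hg : MemLp g 2 μ) :
    Tendsto (fun k => ∫ x, (φ k x - g x) ^ 2 ∂μ) atTop (𝓝 0) ↔
      Tendsto (fun k => (hφ k).toLp (φ k)) atTop (𝓝 (hg.toLp g)) := by
  rw [tendsto_iff_norm_sub_tendsto_zero (b := hg.toLp g)]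
  simp only [← norm_toLp_sub_sq (hφ _) hg]
  refine ⟨fun h => ?_, fun h => by simpa using h.pow 2⟩
  simpa [Real.sqrt_sq, norm_nonneg] using h.sqrt

/-- Inner products pass to limits in mean square. -/
theorem tendsto_ip {φ : ℕ → X → ℝ} (hφ : ∀ k, MemLp (φ k) 2 μ) {g η : X → ℝ}
    (hg : MemLp g 2 μ) (hη : MemLp η 2 μ)
    (h : Tendsto (fun k => ∫ x, (φ k x - g x) ^ 2 ∂μ) atTop (𝓝 0)) :
    Tendsto (fun k => ∫ x, η x * φ k x ∂μ) atTop (𝓝 (∫ x, η x * g x ∂μ)) := by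
  have := ((tendsto_toLp_iff hφ hg).1 h)
  have h2 := (tendsto_const_nhds (x := hη.toLp η)).inner (𝕜 := ℝ) this
  simp only [inner_toLp] at h2
  exact h2

/-- Mean squares pass to limits in mean square. -/
theorem tendsto_sq {φ : ℕ → X → ℝ} (hφ : ∀ k, MemLp (φ k) 2 μ) {g : X → ℝ} (hg : MemLp g 2 μ)
    (h : Tendsto (fun k => ∫ x, (φ k x - g x) ^ 2 ∂μ) atTop (𝓝 0)) :
    Tendsto (fun k => ∫ x, φ k x ^ 2 ∂μ) atTop (𝓝 (∫ x, g x ^ 2 ∂μ)) := by
  have := ((tendsto_toLp_iff hφ hg).1 h).norm.pow 2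
  simp only [norm_toLp_sq] at this
  exact this

/-- A bounded sequence, coercive off finitely many directions up to errors tending to zero, has a
subsequence with a limit in mean square. -/
theorem exists_limit_subseq {N : ℕ} {φ : ℕ → X → ℝ} (hφ : ∀ k, MemLp (φ k) 2 μ) {B : ℝ}
    (hB : ∀ k, ∫ x, φ k x ^ 2 ∂μ ≤ B) {ξ : Fin N → X → ℝ} (hξ : ∀ i, MemLp (ξ i) 2 μ) {c : ℝ}
    (hc : 0 < c) {δ : ℕ → ℝ} (hδ : Tendsto δ atTop (𝓝 0))
    (h : ∀ j k, c * ∫ x, (φ j x - φ k x) ^ 2 ∂μ ≤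
      δ j + δ k + ∑ i, ((∫ x, ξ i x * φ j x ∂μ) - ∫ x, ξ i x * φ k x ∂μ) ^ 2) :
    ∃ (ψ : ℕ → ℕ) (g : X → ℝ), StrictMono ψ ∧ MemLp g 2 μ ∧
      Tendsto (fun k => ∫ x, (φ (ψ k) x - g x) ^ 2 ∂μ) atTop (𝓝 0) := by
  set v : ℕ → Fin N → ℝ := fun k i => ∫ x, ξ i x * φ k x ∂μ with hv
  have hnorm : ∀ k, ‖(hφ k).toLp (φ k)‖ ≤ √B := fun k =>
    Real.le_sqrt_of_sq_le (by rw [norm_toLp_sq]; exact hB k)
  set R := ∑ i, ‖(hξ i).toLp (ξ i)‖ * √B
  have hvb : ∀ k, v k ∈ Metric.closedBall (0 : Fin N → ℝ) R := fun k => by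
    rw [Metric.mem_closedBall, dist_zero_right,
      pi_norm_le_iff_of_nonneg (Finset.sum_nonneg fun i _ => by positivity)]
    intro i
    calc ‖v k i‖ = |⟪(hξ i).toLp (ξ i), (hφ k).toLp (φ k)⟫| := by
          rw [inner_toLp]; rfl
      _ ≤ ‖(hξ i).toLp (ξ i)‖ * ‖(hφ k).toLp (φ k)‖ := abs_real_inner_le_norm _ _
      _ ≤ ‖(hξ i).toLp (ξ i)‖ * √B := mul_le_mul_of_nonneg_left (hnorm k) (norm_nonneg _)
      _ ≤ R := Finset.single_le_sum (f := fun i => ‖(hξ i).toLp (ξ i)‖ * √B)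
          (fun j _ => by positivity) (Finset.mem_univ i)
  obtain ⟨a, -, ψ, hψ, hlim⟩ := tendsto_subseq_of_bounded Metric.isBounded_closedBall hvb
  set u := fun k => (hφ (ψ k)).toLp (φ (ψ k))
  have hcs : CauchySeq u := by
    have hT : Tendsto (fun p : ℕ × ℕ => (δ (ψ p.1) + δ (ψ p.2) +
        ∑ i, (v (ψ p.1) i - v (ψ p.2) i) ^ 2) / c) (atTop ×ˢ atTop) (𝓝 0) := by
      have h1 := hδ.comp hψ.tendsto_atTop
      have h2 : ∀ i, Tendsto (fun k => v (ψ k) i) atTop (𝓝 (a i)) := tendsto_pi_nhds.1 hlim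
      have := (((h1.comp tendsto_fst).add (h1.comp tendsto_snd)).add
        (tendsto_finsetSum Finset.univ fun i _ =>
          (((h2 i).comp (tendsto_fst (g := atTop))).sub
            ((h2 i).comp (tendsto_snd (f := atTop)))).pow 2)).div_const c
      simpa using this
    rw [Metric.cauchySeq_iff]
    intro ε hε
    have := hT.eventually (Iio_mem_nhds (show (0 : ℝ) < ε ^ 2 by positivity))
    rw [prod_atTop_atTop_eq, eventually_atTop_prod_self'] at this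
    obtain ⟨N₀, hN⟩ := this
    refine ⟨N₀, fun m hm n hn => ?_⟩
    have h3 : dist (u m) (u n) ^ 2 ≤ (δ (ψ m) + δ (ψ n) +
        ∑ i, (v (ψ m) i - v (ψ n) i) ^ 2) / c := by
      rw [dist_eq_norm, norm_toLp_sub_sq, le_div_iff₀ hc, mul_comm]
      exact h _ _
    exact lt_of_pow_lt_pow_left₀ 2 hε.le (h3.trans_lt (hN m hm n hn))
  obtain ⟨G, hG⟩ := cauchySeq_tendsto_of_complete hcs
  refine ⟨ψ, G, hψ, Lp.memLp G, (tendsto_toLp_iff (fun k => hφ (ψ k)) (Lp.memLp G)).2 ?_⟩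
  rwa [Lp.toLp_coeFn]

end Vale.Agent.P363.One
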