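import Vale.Agent.P363.Exist.One.Positive

/-!
P363: the two lowest levels of one electron at two distant centres.
-/

noncomputable section

namespace Vale.Agent.P363.One

open MeasureTheory Filter Set
open scoped BigOperators Topology NNReal

/-- The levels with a gap uniform in the distance and energies tending to `-1/2`. -/
theorem levels_uniform : ∃ γ : ℝ, 0 < γ ∧ γ < 1 / 2 ∧ ∀ ε : ℝ, 0 < ε → ∃ l₀ : ℝ, 0 < l₀ ∧
    ∀ l, l₀ ≤ l → ∃ eg eu : ℝ, ∃ g u : Space → ℝ,
      Levels l eg eu (-1 / 2 + γ - eu) g u ∧ |eg + 1 / 2| ≤ ε ∧ |eu + 1 / 2| ≤ ε := by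
  obtain ⟨γ, hγ, hγ4, l₁, hl₁, hlow⟩ := sector_lower
  refine ⟨γ, hγ, by linarith, fun ε hε => ?_⟩
  set ε' := min ε (γ / 2) with hε'
  have hε0 : 0 < ε' := lt_min hε (half_pos hγ)
  obtain ⟨l₂, hl₂, htri⟩ := sector_trial ε' hε0
  refine ⟨max (max l₁ l₂) (max 1 (8 / ε')), lt_max_of_lt_left (lt_max_of_lt_left hl₁),
    fun l hl => ?_⟩
  have hl1 : l₁ ≤ l := (le_max_left _ _).trans ((le_max_left _ _).trans hl)
  have hl2 : l₂ ≤ l := (le_max_right _ _).trans ((le_max_left _ _).trans hl)
  have hlone : 1 ≤ l := (le_max_left _ _).trans ((le_max_right _ _).trans hl)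
  have hl8 : 8 / ε' ≤ l := (le_max_right _ _).trans ((le_max_right _ _).trans hl)
  have hl0 : 0 < l := one_pos.trans_le hlone
  obtain ⟨ξ, hξ, hb⟩ := hlow l hl1
  have hE : ε' < γ := (min_le_right _ _).trans_lt (by linarith)
  have hsb : ∀ σ : ℝ, σ ^ 2 = 1 → SectorBound l σ (-1 / 2 + γ) ξ := fun σ hσ =>
    ⟨hσ, hξ, fun f hf hp => hb σ hσ f hf hp⟩
  have hse : (1 : ℝ) ^ 2 = 1 := by norm_num
  have hso : (-1 : ℝ) ^ 2 = 1 := by norm_num
  obtain ⟨fe, hfe, hfe1, hfep, hfeq⟩ := htri l hl2 1 hse
  obtain ⟨fo, hfo, hfo1, hfop, hfoq⟩ := htri l hl2 (-1) hso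
  obtain ⟨eg, g0, hege, hg0⟩ := exists_sectorMin (hsb 1 hse) hfe hfe1 hfep (by linarith)
  obtain ⟨eu, u0, heuo, hu0⟩ := exists_sectorMin (hsb (-1) hso) hfo hfo1 hfop (by linarith)
  have hg := hg0.abs_limit (Or.inl rfl) hg0.lower
  have hu := hu0.signed_limit
  set g := fun x => |g0 x|
  set u := fun x => signH x * |u0 x| with hu'
  have hgE : eg < -1 / 2 + γ := by linarith
  have huE : eu < -1 / 2 + γ := by linarith
  have hgneg : eg < 0 := by linarith
  have huneg : eu < 0 := by linarith
  have huabs : ∀ x, u x = signH x * |u x| := fun x => by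
    simp only [hu', abs_mul, abs_abs]
    rw [show |signH x| = 1 by unfold signH; split_ifs <;> simp, one_mul]
  have hgp := hg.pos hse hgneg fun x => abs_nonneg _
  have hup := hu.pos_upper huneg huabs
  have hlt := level_lt (hsb 1 hse) hg hu hgE hgneg hgp huabs
  have hlb : ∀ {σ e : ℝ} {h : Space → ℝ}, IsSectorMin l σ e h → -1 / 2 - ε' ≤ e := by
    intro σ e h hh
    obtain ⟨φ, hφ, hq, -⟩ := hh.limit
    refine ge_of_tendsto hq (Eventually.of_forall fun k => ?_)
    have hf := (hφ k).1
    have h1 := qform_ge_parts hl0 hf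
    have hu1 := isTest1_upPart hl0 hf
    have hd1 := isTest1_downPart hl0 hf
    have hA : ∀ (p : Space) (w : Space → ℝ), IsTest1 w → -(sqn w / 2) ≤ qAt p w := by
      intro p w hw
      rw [qAt_eq]
      have hw' : IsTest1 fun y => w (y + p) := by
        simpa only [sub_neg_eq_add] using hw.comp_sub (-p)
      refine le_trans (le_of_eq ?_) (qH_ge hw')
      simp only [sqn]
      rw [integral_add_right_eq_self (fun y => w y ^ 2) p]
    have h2 := hA (l • unit3 2) _ hu1
    have h3 := hA (-(l • unit3 2)) _ hd1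
    have h4 := sqn_parts hl0 hf
    have h5 : 2 / l + 3 * (Real.pi / (2 * l)) ^ 2 / 2 ≤ ε' := by
      have a1 : (Real.pi / (2 * l)) ^ 2 ≤ 4 / l := by
        have : (Real.pi / (2 * l)) ^ 2 ≤ (2 / l) ^ 2 := by
          refine pow_le_pow_left₀ (by positivity) ?_ 2
          rw [div_le_div_iff₀ (by positivity) hl0]
          nlinarith [Real.pi_le_four]
        refine this.trans ?_
        rw [div_pow, div_le_div_iff₀ (by positivity) hl0]
        nlinarith
      have a2 : 8 / l ≤ ε' := by
        rw [div_le_iff₀ hε0] at hl8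
        rw [div_le_iff₀ hl0]
        linarith
      have a3 : (8 : ℝ) / l = 2 / l + 3 * (4 / l) / 2 := by ring
      linarith
    rw [(hφ k).2.1, mul_one] at h1
    rw [(hφ k).2.1] at h4
    linarith
  have hεε : ε' ≤ ε := min_le_left _ _
  refine ⟨eg, eu, g, u,
    { g_memLp := hg.memLp
      u_memLp := hu.memLp
      g_norm := hg.norm_one
      u_norm := hu.norm_one
      orth := ip_parity_zero hse (hg.parity_ae hse)
        ((hu.parity_ae hso).trans (Eventually.of_forall fun x => rfl))
      g_even := (hg.parity_ae hse).trans (Eventually.of_forall fun x => one_mul _)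
      u_odd := (hu.parity_ae hso).trans (Eventually.of_forall fun x => neg_one_mul _)
      g_axial := ?_
      u_axial := ?_
      g_pos := hgp
      u_pos := hup
      gap_pos := by linarith
      eg_lt_eu := hlt
      top_neg := by linarith
      g_limit := hg.limit
      u_limit := hu.limit
      lower := fun f hf => ?_
      g_eq := hg.weakPoisson hse
      u_eq := hu.weakPoisson hso }, abs_le.2 ⟨by linarith [hlb hg], by linarith⟩,
    abs_le.2 ⟨by linarith [hlb hu], by linarith⟩⟩
  · intro T hT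
    obtain ⟨c, hc2, hc⟩ := sectorMin_unique (hsb 1 hse) hg (hg.comp_axis hT) hgE
    filter_upwards [hc, hgp] with x hx hp
    rcases sq_eq_one_iff.1 hc2 with h | h <;> subst h
    · rw [hx, one_mul]
    · have : 0 ≤ g (T x) := abs_nonneg _
      linarith
  · intro T hT
    obtain ⟨c, hc2, hc⟩ := sectorMin_unique (hsb (-1) hso) hu (hu.comp_axis hT) huE
    rcases sq_eq_one_iff.1 hc2 with h | h <;> subst h
    · filter_upwards [hc] with x hx
      rw [hx, one_mul]
    · exfalso
      refine ae_eq_zero_false hu.norm_one ?_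
      filter_upwards [hc, ae_height_ne] with x hx hx0
      have e : signH (T x) = signH x := by unfold signH; rw [height_comp hT]
      have e1 : signH x * |u0 (T x)| = -1 * (signH x * |u0 x|) := by
        simpa only [hu', e] using hx
      have h0 : signH x * (|u0 (T x)| + |u0 x|) = 0 := by linarith
      have hs : signH x ≠ 0 := fun h => by simpa [h] using signH_sq x
      rcases mul_eq_zero.1 h0 with h | h
      · exact absurd h hs
      · have : |u0 x| = 0 := by linarith [abs_nonneg (u0 (T x)), abs_nonneg (u0 x)]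
        simp [hu', this]
  · have := levels_lower (hsb 1 hse) (hsb (-1) hso) hg hu hgE huE hf
    rw [add_sub_cancel]
    exact this

theorem levels : LevelsStmt := by
  obtain ⟨γ, -, -, h⟩ := levels_uniform
  obtain ⟨l₀, hl₀, h1⟩ := h 1 one_pos
  refine ⟨l₀, hl₀, fun l hl => ?_⟩
  obtain ⟨eg, eu, g, u, h2, -⟩ := h1 l hl
  exact ⟨eg, eu, _, g, u, h2⟩

end Vale.Agent.P363.One
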