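import Vale.Agent.P363.Exist.One.Trial
import Vale.Agent.P363.Exist.One.L2Seq

/-!
P363: the lowest level of the two-centre form in a parity sector: existence, uniqueness, the
bound off it, and the weak equation.
-/

noncomputable section

namespace Vale.Agent.P363.One

open MeasureTheory Filter Set
open scoped BigOperators Topology NNReal RealInnerProductSpace

/-- Parity under the mirror. -/
def Parity (σ : ℝ) (f : Space → ℝ) : Prop := ∀ x, f (mirror x) = σ * f x

/-- A bound off one direction in a sector. -/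
structure SectorBound (l σ E' : ℝ) (ξ : Space → ℝ) : Prop where
  sign : σ ^ 2 = 1
  memLp : MemLp ξ 2
  lower : ∀ f, IsTest1 f → Parity σ f → E' * sqn f - ip ξ f ^ 2 ≤ qform l f

/-- A lowest state of a sector. -/
structure IsSectorMin (l σ e : ℝ) (g : Space → ℝ) : Prop where
  memLp : MemLp g 2
  norm_one : sqn g = 1
  limit : IsLevelLimit l σ e g
  lower : ∀ f, IsTest1 f → Parity σ f → e * sqn f ≤ qform l f

theorem Parity.lin {σ : ℝ} {f g : Space → ℝ} (hf : Parity σ f) (hg : Parity σ g) (s t : ℝ) :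
    Parity σ fun x => s * f x + t * g x := fun x => by
  simp only [hf x, hg x]; ring

theorem qform_smul (l : ℝ) {f : Space → ℝ} (hf : IsTest1 f) (t : ℝ) :
    qform l (fun x => t * f x) = t ^ 2 * qform l f := by
  have h := qform_add_smul l hf hf t 0
  simp only [zero_mul, add_zero] at h
  rw [h]; ring

theorem sqn_smul (f : Space → ℝ) (t : ℝ) : sqn (fun x => t * f x) = t ^ 2 * sqn f := by
  simp only [sqn, mul_pow]
  exact integral_const_mul _ _

theorem ip_comm (f g : Space → ℝ) : ip f g = ip g f :=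
  integral_congr_ae (Eventually.of_forall fun _ => mul_comm _ _)

theorem ip_add_smul {η f g : Space → ℝ} (hη : MemLp η 2) (hf : MemLp f 2) (hg : MemLp g 2)
    (s t : ℝ) : ip η (fun x => s * f x + t * g x) = s * ip η f + t * ip η g := by
  simp only [ip]
  have i1 : Integrable fun x => η x * f x := hη.integrable_mul hf
  have i2 : Integrable fun x => η x * g x := hη.integrable_mul hg
  rw [← integral_const_mul, ← integral_const_mul, ← integral_add (i1.const_mul s) (i2.const_mul t)]
  exact integral_congr_ae (Eventually.of_forall fun x => by ring)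

theorem qform_eq_zero_of_sqn {l : ℝ} {f : Space → ℝ} (hf : IsTest1 f) (h : sqn f = 0) :
    qform l f = 0 := by
  have h0 : f = fun _ => 0 := by
    refine (hf.continuous.ae_eq_iff_eq (volume : Measure Space) continuous_const).1 ?_
    filter_upwards [(integral_eq_zero_iff_of_nonneg (fun x => sq_nonneg (f x))
      (integrable_sq hf)).1 h] with x hx
    simpa using hx
  subst h0
  simp [qform, kin, deriv3]

theorem sqn_comp_mirror (f : Space → ℝ) : sqn (fun x => f (mirror x)) = sqn f :=
  integral_comp_mirror fun x => f x ^ 2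

theorem memLp_comp_mirror {f : Space → ℝ} (hf : MemLp f 2) :
    MemLp (fun x => f (mirror x)) 2 :=
  hf.comp_measurePreserving measurePreserving_mirror

theorem exists_sectorMin {l σ E' : ℝ} {ξ : Space → ℝ} (hb : SectorBound l σ E' ξ)
    {f₀ : Space → ℝ} (hf₀ : IsTest1 f₀) (h1 : sqn f₀ = 1) (hp : Parity σ f₀)
    (hlt : qform l f₀ < E') : ∃ e g, e ≤ qform l f₀ ∧ IsSectorMin l σ e g := by
  set S := {t : ℝ | ∃ f, IsTest1 f ∧ sqn f = 1 ∧ Parity σ f ∧ qform l f = t} with hS
  have hne : S.Nonempty := ⟨_, f₀, hf₀, h1, hp, rfl⟩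
  have hbdd : BddBelow S := ⟨-4, by
    rintro t ⟨f, hf, hf1, -, rfl⟩
    have := qform_ge l hf
    linarith [kin_nonneg f]⟩
  set e := sInf S
  have hle : e ≤ qform l f₀ := csInf_le hbdd ⟨f₀, hf₀, h1, hp, rfl⟩
  have hlow : ∀ f, IsTest1 f → Parity σ f → e * sqn f ≤ qform l f := by
    intro f hf hpar
    rcases (sqn_nonneg f).eq_or_lt with h0 | hpos
    · rw [qform_eq_zero_of_sqn hf h0.symm, ← h0, mul_zero]
    set t := (√(sqn f))⁻¹
    have ht : t ^ 2 * sqn f = 1 := by
      rw [inv_pow, Real.sq_sqrt hpos.le, inv_mul_cancel₀ hpos.ne']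
    have := csInf_le hbdd ⟨fun x => t * f x, hf.smul t, by rw [sqn_smul, ht],
      fun x => by simp only [hpar x]; ring, rfl⟩
    rw [qform_smul l hf] at this
    have h2 := mul_le_mul_of_nonneg_right this hpos.le
    rw [mul_right_comm, ht, one_mul] at h2
    exact h2
  obtain ⟨t, -, htt, htm⟩ := exists_seq_tendsto_sInf hne hbdd
  choose φ hφt hφ1 hφp hφq using htm
  have hgap : 0 < E' - e := by linarith
  have hφm := fun k => (hφt k).memLp
  have key : ∀ j k, (E' - e) * ∫ x, (φ j x - φ k x) ^ 2 ≤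
      2 * (t j - e) + 2 * (t k - e) +
        ∑ _i : Fin 1, ((∫ x, ξ x * φ j x) - ∫ x, ξ x * φ k x) ^ 2 := by
    intro j k
    have hT : ∀ s : ℝ, IsTest1 fun x => 1 * φ j x + s * φ k x := fun s =>
      ((hφt j).smul 1).add ((hφt k).smul s)
    have hm := hb.lower _ (hT (-1)) ((hφp j).lin (hφp k) 1 (-1))
    have hpl := hlow _ (hT 1) ((hφp j).lin (hφp k) 1 1)
    have e2 : sqn (fun x => 1 * φ j x + -1 * φ k x) = ∫ x, (φ j x - φ k x) ^ 2 :=
      integral_congr_ae (Eventually.of_forall fun x => by ring)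
    rw [← e2]
    rw [qform_add_smul l (hφt j) (hφt k)] at hm hpl
    rw [sqn_add_smul (hφm j) (hφm k)] at hm hpl ⊢
    rw [ip_add_smul hb.memLp (hφm j) (hφm k)] at hm
    simp only [hφ1, hφq, ip, Finset.univ_unique, Finset.sum_singleton] at hm hpl ⊢
    nlinarith
  have hδ : Tendsto (fun k => 2 * (t k - e)) atTop (𝓝 0) := by
    have := (htt.sub_const e).const_mul 2
    rw [show sInf S = e from rfl, sub_self, mul_zero] at this
    exact this
  obtain ⟨ψ, g, hψ, hg, hlim⟩ :=
    exists_limit_subseq hφm (B := 1) (fun k => (hφ1 k).le) (fun _ : Fin 1 => hb.memLp) hgap hδ key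
  refine ⟨e, g, hle, hg, ?_, ⟨fun k => φ (ψ k), fun k => ⟨hφt _, hφ1 _, hφp _⟩, ?_, hlim⟩, hlow⟩
  · exact tendsto_nhds_unique (tendsto_sq (fun k => hφm (ψ k)) hg hlim)
      (tendsto_const_nhds.congr fun k => (hφ1 (ψ k)).symm)
  · simp only [hφq]
    exact htt.comp hψ.tendsto_atTop

theorem IsSectorMin.parity_ae {l σ e : ℝ} {g : Space → ℝ} (hg : IsSectorMin l σ e g)
    (hσ : σ ^ 2 = 1) : (fun x => g (mirror x)) =ᵐ[volume] fun x => σ * g x := by
  obtain ⟨φ, hφ, -, hlim⟩ := hg.limit
  have hm := (memLp_comp_mirror hg.memLp).sub (hg.memLp.const_mul σ)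
  have hbound : ∀ k, ∫ x, (g (mirror x) - σ * g x) ^ 2 ≤
      4 * sqn (fun x => φ k x - g x) := by
    intro k
    have hd := (hφ k).1.memLp.sub hg.memLp
    have i1 : Integrable fun x => (φ k (mirror x) - g (mirror x)) ^ 2 :=
      (memLp_comp_mirror hd).integrable_sq
    have i2 : Integrable fun x => (φ k x - g x) ^ 2 := hd.integrable_sq
    calc ∫ x, (g (mirror x) - σ * g x) ^ 2
        ≤ ∫ x, (2 * (φ k (mirror x) - g (mirror x)) ^ 2 + 2 * (φ k x - g x) ^ 2) := by
          refine integral_mono hm.integrable_sq ((i1.const_mul _).add (i2.const_mul _)) fun x => ?_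
          have e : g (mirror x) - σ * g x =
              -(φ k (mirror x) - g (mirror x)) + σ * (φ k x - g x) := by
            rw [(hφ k).2.2 x]; ring
          rw [e]
          refine add_sq_le.trans (le_of_eq ?_)
          linear_combination (2 * (φ k x - g x) ^ 2) * hσ
      _ = _ := by
          rw [integral_add (i1.const_mul _) (i2.const_mul _), integral_const_mul,
            integral_const_mul, integral_comp_mirror fun x => (φ k x - g x) ^ 2, sqn]
          ring
  have h0 : ∫ x, (g (mirror x) - σ * g x) ^ 2 = 0 :=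
    le_antisymm (ge_of_tendsto (by simpa using hlim.const_mul 4) (Eventually.of_forall hbound))
      (integral_nonneg fun _ => sq_nonneg _)
  filter_upwards [(integral_eq_zero_iff_of_nonneg (fun _ => sq_nonneg _) hm.integrable_sq).1 h0]
    with x hx
  simp only [Pi.zero_apply] at hx
  exact sub_eq_zero.1 (pow_eq_zero_iff two_ne_zero |>.1 hx)

/-- Against a test function of the sector the bilinear form tends to `e` times the inner
product. -/
theorem tendsto_qbil {l σ e : ℝ} (hlow : ∀ f, IsTest1 f → Parity σ f → e * sqn f ≤ qform l f)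
    {φ : ℕ → Space → ℝ} (hφ : ∀ k, IsTest1 (φ k) ∧ sqn (φ k) = 1 ∧ Parity σ (φ k))
    (hq : Tendsto (fun k => qform l (φ k)) atTop (𝓝 e)) {f : Space → ℝ} (hf : IsTest1 f)
    (hp : Parity σ f) :
    Tendsto (fun k => qbil l (φ k) f - e * ip (φ k) f) atTop (𝓝 0) := by
  set c := qform l f - e * sqn f
  have hc : 0 ≤ c := sub_nonneg.2 (hlow f hf hp)
  rw [Metric.tendsto_atTop]
  intro ε hε
  set s := ε / (c + 1) with hs
  have hs0 : 0 < s := by positivity
  have hev : ∀ᶠ k in atTop, qform l (φ k) - e < s * ε := by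
    have := hq.sub_const e
    rw [sub_self] at this
    exact this.eventually (Iio_mem_nhds (by positivity))
  obtain ⟨N, hN⟩ := eventually_atTop.1 hev
  refine ⟨N, fun k hk => ?_⟩
  have hk' := hN k hk
  set d := qbil l (φ k) f - e * ip (φ k) f with hd
  have hquad : ∀ t : ℝ, 0 ≤ (qform l (φ k) - e) + 2 * t * d + t ^ 2 * c := by
    intro t
    have hT : IsTest1 fun x => 1 * φ k x + t * f x := ((hφ k).1.smul 1).add (hf.smul t)
    have h := hlow _ hT (Parity.lin (σ := σ) (hφ k).2.2 hp 1 t)
    rw [qform_add_smul l (hφ k).1 hf, sqn_add_smul (hφ k).1.memLp hf.memLp, (hφ k).2.1] at h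
    simp only [c, hd]
    linarith
  rw [dist_zero_right, Real.norm_eq_abs, abs_lt]
  have hsc : s * c < ε := by
    rw [hs, div_mul_eq_mul_div, div_lt_iff₀ (by linarith)]
    nlinarith
  constructor <;> nlinarith [hquad s, hquad (-s), mul_lt_mul_of_pos_left hsc hs0]

theorem rankOne_lower {l σ e E' : ℝ} {ξ g : Space → ℝ} (hb : SectorBound l σ E' ξ)
    (hg : IsSectorMin l σ e g) (he : e < E') {f : Space → ℝ} (hf : IsTest1 f) (hp : Parity σ f) :
    e * ip g f ^ 2 + E' * (sqn f - ip g f ^ 2) ≤ qform l f := by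
  obtain ⟨φ, hφ, hq, hlim⟩ := hg.limit
  have hφm := fun k => (hφ k).1.memLp
  have hipf : Tendsto (fun k => ip (φ k) f) atTop (𝓝 (ip g f)) := by
    simp only [ip_comm _ f]
    exact tendsto_ip hφm hg.memLp hf.memLp hlim
  have hqb : Tendsto (fun k => qbil l (φ k) f) atTop (𝓝 (e * ip g f)) := by
    have := (tendsto_qbil hg.lower hφ hq hf hp).add (hipf.const_mul e)
    simpa using this
  have hξ : Tendsto (fun k => ip ξ (φ k)) atTop (𝓝 (ip ξ g)) :=
    tendsto_ip hφm hg.memLp hb.memLp hlim
  have key : ∀ s t : ℝ, E' * (s ^ 2 + 2 * s * t * ip g f + t ^ 2 * sqn f) -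
      (s * ip ξ g + t * ip ξ f) ^ 2 ≤ s ^ 2 * e + 2 * s * t * (e * ip g f) + t ^ 2 * qform l f := by
    intro s t
    refine le_of_tendsto_of_tendsto
      (((((hipf.const_mul (2 * s * t)).const_add (s ^ 2)).add_const _).const_mul E').sub
        (((hξ.const_mul s).add_const _).pow 2))
      (((hq.const_mul (s ^ 2)).add (hqb.const_mul (2 * s * t))).add_const _)
      (Eventually.of_forall fun k => ?_)
    have h := hb.lower _ (((hφ k).1.smul s).add (hf.smul t)) (Parity.lin (σ := σ) (hφ k).2.2 hp s t)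
    rw [qform_add_smul l (hφ k).1 hf, sqn_add_smul (hφm k) hf.memLp, (hφ k).2.1,
      ip_add_smul hb.memLp (hφm k) hf.memLp, mul_one] at h
    exact h
  set a := ip ξ g
  set A := ip g f
  have ha : a ≠ 0 := by
    intro h0
    have := key 1 0
    rw [h0] at this
    linarith
  have h := key (-ip ξ f) a
  rw [show -ip ξ f * a + a * ip ξ f = 0 by ring] at h
  have h2 : 0 ≤ (E' - e) * (ip ξ f - a * A) ^ 2 := mul_nonneg (by linarith) (sq_nonneg _)
  have h3 : 0 ≤ a ^ 2 * (qform l f - (e * A ^ 2 + E' * (sqn f - A ^ 2))) := by nlinarith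
  exact sub_nonneg.1 (nonneg_of_mul_nonneg_right h3 (pow_two_pos_of_ne_zero ha))

theorem sectorMin_unique {l σ e E' : ℝ} {ξ g h : Space → ℝ} (hb : SectorBound l σ E' ξ)
    (hg : IsSectorMin l σ e g) (hh : IsSectorMin l σ e h) (he : e < E') :
    ∃ c : ℝ, c ^ 2 = 1 ∧ h =ᵐ[volume] fun x => c * g x := by
  obtain ⟨ψ, hψ, hq, hlim⟩ := hh.limit
  have hψm := fun k => (hψ k).1.memLp
  set A := ip g h
  have hA : Tendsto (fun k => ip g (ψ k)) atTop (𝓝 A) := tendsto_ip hψm hh.memLp hg.memLp hlim
  have hA1 : 1 ≤ A ^ 2 := by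
    have hle : e * A ^ 2 + E' * (1 - A ^ 2) ≤ e := by
      refine le_of_tendsto_of_tendsto
        (((hA.pow 2).const_mul e).add (((hA.pow 2).const_sub 1).const_mul E')) hq
        (Eventually.of_forall fun k => ?_)
      have := rankOne_lower hb hg he (hψ k).1 (hψ k).2.2
      rwa [(hψ k).2.1] at this
    nlinarith
  have hd : ∫ x, (h x - A * g x) ^ 2 = 1 - A ^ 2 := by
    have := sqn_add_smul hh.memLp hg.memLp 1 (-A)
    rw [hh.norm_one, hg.norm_one, ip_comm] at this
    rw [show (1 : ℝ) - A ^ 2 = sqn (fun x => 1 * h x + -A * g x) by rw [this]; ring]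
    exact integral_congr_ae (Eventually.of_forall fun x => by ring)
  have h0 : 0 ≤ ∫ x, (h x - A * g x) ^ 2 := integral_nonneg fun _ => sq_nonneg _
  have hAeq : A ^ 2 = 1 := le_antisymm (by linarith) hA1
  refine ⟨A, hAeq, ?_⟩
  filter_upwards [(integral_eq_zero_iff_of_nonneg (fun _ => sq_nonneg _)
    (hh.memLp.sub (hg.memLp.const_mul A)).integrable_sq).1 (show ∫ x, (h x - A * g x) ^ 2 = 0 by
      linarith)] with x hx
  simp only [Pi.zero_apply] at hx
  exact sub_eq_zero.1 (pow_eq_zero_iff two_ne_zero |>.1 hx)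

/-! ### Decomposition into parity parts -/

/-- The part of parity `σ`. -/
def part (σ : ℝ) (f : Space → ℝ) (x : Space) : ℝ := (1 / 2) * f x + σ / 2 * f (mirror x)

theorem isTest1_part {f : Space → ℝ} (hf : IsTest1 f) (σ : ℝ) : IsTest1 (part σ f) :=
  (hf.smul _).add (hf.comp_mirror.smul _)

theorem parity_part {σ : ℝ} (hσ : σ ^ 2 = 1) (f : Space → ℝ) : Parity σ (part σ f) := fun x => by
  simp only [part, mirror_mirror]
  linear_combination (-(f (mirror x) / 2)) * hσ

theorem ip_parity_zero {f g : Space → ℝ} {σ : ℝ} (hσ : σ ^ 2 = 1)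
    (hf : (fun x => f (mirror x)) =ᵐ[volume] fun x => σ * f x)
    (hg : (fun x => g (mirror x)) =ᵐ[volume] fun x => -σ * g x) : ip f g = 0 := by
  have h : ip f g = -ip f g := by
    simp only [ip]
    conv_lhs => rw [← integral_comp_mirror]
    rw [← integral_neg]
    refine integral_congr_ae ?_
    filter_upwards [hf, hg] with x hx hy
    rw [hx, hy]
    linear_combination (-(f x * g x)) * hσ
  linarith

theorem qbil_parity_zero (l : ℝ) {f g : Space → ℝ} (hf : IsTest1 f) (hg : IsTest1 g) {σ : ℝ}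
    (hσ : σ ^ 2 = 1) (hpf : Parity σ f) (hpg : Parity (-σ) g) : qbil l f g = 0 := by
  have h1 := qform_add_smul l hf hg σ σ
  have h2 := qform_add_smul l hf hg σ (-σ)
  have e := qform_comp_mirror l fun x => σ * f x + σ * g x
  have e2 : (fun x => σ * f (mirror x) + σ * g (mirror x)) =
      fun x => σ * (σ * f x + -σ * g x) := funext fun x => by rw [hpf x, hpg x]; ring
  rw [e2, qform_smul l ((hf.smul σ).add (hg.smul (-σ))), h1, h2, hσ] at e
  rw [neg_sq, hσ] at e
  have h3 : σ ^ 2 * qbil l f g = 0 := by linarith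
  rwa [hσ, one_mul] at h3

theorem part_add_part (f : Space → ℝ) (x : Space) : part 1 f x + part (-1) f x = f x := by
  simp only [part]; ring

theorem qform_parts (l : ℝ) {f : Space → ℝ} (hf : IsTest1 f) :
    qform l f = qform l (part 1 f) + qform l (part (-1) f) ∧
      sqn f = sqn (part 1 f) + sqn (part (-1) f) := by
  have h1 := isTest1_part hf 1
  have h2 := isTest1_part hf (-1)
  have hp1 := parity_part (σ := 1) (by norm_num) f
  have hp2 := parity_part (σ := -1) (by norm_num) f
  have he : (fun x => 1 * part 1 f x + 1 * part (-1) f x) = f :=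
    funext fun x => by simp only [one_mul, part_add_part]
  constructor
  · conv_lhs => rw [← he, qform_add_smul l h1 h2, qbil_parity_zero l h1 h2 (σ := 1) (by norm_num)
      hp1 hp2]
    ring
  · conv_lhs => rw [← he, sqn_add_smul h1.memLp h2.memLp,
      ip_parity_zero (σ := 1) (by norm_num) (Eventually.of_forall hp1) (Eventually.of_forall hp2)]
    ring

theorem ip_part {σ : ℝ} (hσ : σ ^ 2 = 1) {g f : Space → ℝ} (hg : MemLp g 2) (hf : IsTest1 f)
    (hpar : (fun x => g (mirror x)) =ᵐ[volume] fun x => σ * g x) :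
    ip g (part σ f) = ip g f := by
  have h1 : ip g (fun x => f (mirror x)) = σ * ip g f := by
    simp only [ip]
    conv_lhs => rw [← integral_comp_mirror]
    rw [← integral_const_mul]
    refine integral_congr_ae ?_
    filter_upwards [hpar] with x hx
    simp only [mirror_mirror, hx]
    ring
  unfold part
  rw [ip_add_smul hg hf.memLp hf.comp_mirror.memLp, h1]
  linear_combination (ip g f / 2) * hσ

/-- The bound off both levels, for all test functions. -/
theorem levels_lower {l eg eu E' : ℝ} {ξe ξo g u : Space → ℝ} (he : SectorBound l 1 E' ξe)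
    (ho : SectorBound l (-1) E' ξo) (hg : IsSectorMin l 1 eg g) (hu : IsSectorMin l (-1) eu u)
    (hge : eg < E') (hue : eu < E') {f : Space → ℝ} (hf : IsTest1 f) :
    eg * ip g f ^ 2 + eu * ip u f ^ 2 + E' * (sqn f - ip g f ^ 2 - ip u f ^ 2) ≤ qform l f := by
  obtain ⟨hq, hs⟩ := qform_parts l hf
  have h1 := rankOne_lower he hg hge (isTest1_part hf 1) (parity_part he.sign f)
  have h2 := rankOne_lower ho hu hue (isTest1_part hf (-1)) (parity_part ho.sign f)
  rw [ip_part he.sign hg.memLp hf (hg.parity_ae he.sign)] at h1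
  rw [ip_part ho.sign hu.memLp hf (hu.parity_ae ho.sign)] at h2
  rw [hq, hs]
  linarith

end Vale.Agent.P363.One
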