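import Vale.Agent.P363.Exist.One.Sign
import Vale.Agent.P363.Tool.YukRep

/-!
P363: the sector minimisers as Yukawa potentials and their strict positivity.
-/

noncomputable section

namespace Vale.Agent.P363.One

open MeasureTheory Filter Set
open scoped BigOperators Topology NNReal ENNReal RealInnerProductSpace

theorem memLp_exp {k : ℝ} (hk : 0 < k) :
    MemLp (fun x : Space => Real.exp (-(k * ‖x‖))) 2 := by
  rw [memLp_two_iff_integrable_sq
    (show Measurable fun x : Space => Real.exp (-(k * ‖x‖)) by fun_prop).aestronglyMeasurable]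
  refine (Yuk.integrable_rpow_exp (s := 0) (c := 2 * k) (by norm_num) (by positivity)).congr
    (Eventually.of_forall fun x => ?_)
  simp only [neg_zero, Real.rpow_zero, one_mul, ← Real.exp_nat_mul]
  congr 1
  push_cast
  ring

theorem pot_le_two {l : ℝ} {x : Space} (hx : |l| + 1 ≤ ‖x‖) : pot l x ≤ 2 := by
  have h : ∀ j, 1 / ‖x - centre l j‖ ≤ 1 := fun j => by
    have hc : ‖centre l j‖ = |l| := by
      fin_cases j <;> simp [centre, norm_smul, norm_unit3]
    have : 1 ≤ ‖x - centre l j‖ := by
      have := norm_sub_norm_le x (centre l j)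
      linarith
    rw [div_le_one (by linarith)]
    exact this
  refine (Finset.sum_le_sum fun j _ => h j).trans ?_
  simp

theorem memLp_exp_pot (l : ℝ) {k : ℝ} (hk : 0 < k) :
    MemLp (fun x => Real.exp (-(k * ‖x‖)) * pot l x) 2 := by
  set K := Metric.closedBall (0 : Space) (|l| + 1)
  have h1 : MemLp (K.indicator (pot l)) 2 :=
    (memLp_indicator_iff_restrict measurableSet_closedBall).2 (memLp_pot l (isCompact_closedBall _ _))
  have h2 : MemLp (fun x : Space => K.indicator (pot l) x + 2 * Real.exp (-(k * ‖x‖))) 2 :=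
    h1.add ((memLp_exp hk).const_mul 2)
  have hm : Measurable fun x : Space => Real.exp (-(k * ‖x‖)) * pot l x :=
    (show Measurable fun x : Space => Real.exp (-(k * ‖x‖)) by fun_prop).mul (measurable_pot l)
  refine h2.mono hm.aestronglyMeasurable (Eventually.of_forall fun x => ?_)
  have hp := pot_nonneg l x
  have he := Real.exp_pos (-(k * ‖x‖))
  have he1 : Real.exp (-(k * ‖x‖)) ≤ 1 := Real.exp_le_one_iff.2 (by nlinarith [norm_nonneg x])
  have hi : 0 ≤ K.indicator (pot l) x := indicator_nonneg (fun y _ => pot_nonneg l y) x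
  rw [Real.norm_eq_abs, Real.norm_eq_abs, abs_of_nonneg (mul_nonneg he.le hp),
    abs_of_nonneg (by positivity)]
  by_cases hx : x ∈ K
  · rw [indicator_of_mem hx]
    nlinarith
  · rw [indicator_of_notMem hx, zero_add, mul_comm (2 : ℝ)]
    refine mul_le_mul_of_nonneg_left (pot_le_two ?_) he.le
    exact le_of_not_ge fun h => hx (by simpa [K] using h)

theorem memLp_yuk_pot (l : ℝ) {k : ℝ} (hk : 0 < k) {x : Space} (hx : ∀ j, x ≠ centre l j) :
    MemLp (fun y => yuk k (x - y) * pot l y) 2 := by
  set δ := min ‖x - centre l 0‖ ‖x - centre l 1‖ / 2 with hδ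
  have hd : ∀ j, 2 * δ ≤ ‖x - centre l j‖ := fun j => by
    rw [hδ]; fin_cases j <;> simp <;> ring_nf <;> simp
  have hδ0 : 0 < δ :=
    half_pos (lt_min (norm_pos_iff.2 (sub_ne_zero.2 (hx 0))) (norm_pos_iff.2 (sub_ne_zero.2 (hx 1))))
  have hy : MemLp (fun y => yuk k (x - y)) 2 := by
    have := (Yuk.yukBounds.2.2.1 k 2 hk (by norm_num) (by norm_num))
    rw [ENNReal.ofReal_ofNat] at this
    exact this.comp_measurePreserving (Measure.measurePreserving_sub_left volume x)
  have h2 : MemLp (fun y => 2 / δ * yuk k (x - y) +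
      Real.exp (k * ‖x‖) / δ * (Real.exp (-(k * ‖y‖)) * pot l y)) 2 :=
    (hy.const_mul _).add ((memLp_exp_pot l hk).const_mul _)
  have hm : Measurable fun y : Space => yuk k (x - y) * pot l y :=
    ((Yuk.measurable_yuk k).comp (measurable_const.sub measurable_id)).mul (measurable_pot l)
  refine h2.mono hm.aestronglyMeasurable (Eventually.of_forall fun y => ?_)
  have hp := pot_nonneg l y
  have hY := Yuk.yuk_nonneg k (x - y)
  have hE := mul_nonneg (Real.exp_pos (-(k * ‖y‖))).le hp
  rw [Real.norm_eq_abs, Real.norm_eq_abs, abs_of_nonneg (mul_nonneg hY hp),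
    abs_of_nonneg (by positivity)]
  rcases lt_or_ge ‖x - y‖ δ with h | h
  · have hb : pot l y ≤ 2 / δ := by
      have hj : ∀ j, 1 / ‖y - centre l j‖ ≤ 1 / δ := fun j => by
        refine one_div_le_one_div_of_le hδ0 ?_
        have h1 := norm_sub_le_norm_sub_add_norm_sub x y (centre l j)
        linarith [hd j]
      refine (Finset.sum_le_sum fun j _ => hj j).trans (le_of_eq ?_)
      simp
      ring
    calc yuk k (x - y) * pot l y ≤ 2 / δ * yuk k (x - y) := by
          rw [mul_comm (2 / δ)]; exact mul_le_mul_of_nonneg_left hb hY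
      _ ≤ _ := le_add_of_nonneg_right (by positivity)
  · have hb : yuk k (x - y) ≤ Real.exp (k * ‖x‖) / δ * Real.exp (-(k * ‖y‖)) := by
      refine (Yuk.yuk_le k (x - y)).trans ?_
      rw [div_eq_mul_inv, mul_comm (Real.exp (k * ‖x‖)), mul_assoc, ← Real.exp_add]
      refine mul_le_mul (inv_anti₀ hδ0 h) (Real.exp_le_exp.2 ?_) (Real.exp_pos _).le
        (by positivity)
      have := norm_sub_norm_le y x
      rw [norm_sub_rev] at this
      nlinarith
    calc yuk k (x - y) * pot l y
        ≤ Real.exp (k * ‖x‖) / δ * Real.exp (-(k * ‖y‖)) * pot l y :=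
          mul_le_mul_of_nonneg_right hb hp
      _ ≤ _ := by rw [mul_assoc]; exact le_add_of_nonneg_left (by positivity)

theorem pot_pos {l : ℝ} {x : Space} (hx : ∀ j, x ≠ centre l j) : 0 < pot l x :=
  Finset.sum_pos (fun j _ => one_div_pos.2 (norm_pos_iff.2 (sub_ne_zero.2 (hx j))))
    Finset.univ_nonempty

theorem yuk_pos (k : ℝ) {x : Space} (hx : x ≠ 0) : 0 < yuk k x := by
  unfold yuk
  have := norm_pos_iff.2 hx
  positivity

theorem ae_off_centres (l : ℝ) : ∀ᵐ x : Space, ∀ j, x ≠ centre l j :=
  ae_all_iff.2 fun _ => ae_ne _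

/-- The decay rate of a level. -/
def rate (e : ℝ) : ℝ := √(-2 * e)

theorem rate_pos {e : ℝ} (he : e < 0) : 0 < rate e := Real.sqrt_pos.2 (by linarith)

theorem integrable_kernel (l : ℝ) {e : ℝ} (he : e < 0) {f : Space → ℝ} (hf : MemLp f 2) {x : Space}
    (hx : ∀ j, x ≠ centre l j) :
    Integrable fun y => yuk (rate e) (x - y) * pot l y * f y :=
  (memLp_yuk_pot l (rate_pos he) hx).integrable_mul hf

/-- The sector minimiser is the potential of `2 * pot * g`. -/
theorem IsSectorMin.repr {l σ e : ℝ} {g : Space → ℝ} (hg : IsSectorMin l σ e g) (hσ : σ ^ 2 = 1)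
    (he : e < 0) :
    ∀ᵐ x : Space, g x = 2 * ∫ y, yuk (rate e) (x - y) * pot l y * g y := by
  have hk := rate_pos he
  have hk2 : rate e ^ 2 = -2 * e := Real.sq_sqrt (by linarith)
  have i1 : Integrable fun x => Real.exp (-(rate e * ‖x‖)) * g x :=
    (memLp_exp hk).integrable_mul hg.memLp
  have i2 : Integrable fun x => Real.exp (-(rate e * ‖x‖)) * pot l x * g x :=
    (memLp_exp_pot l hk).integrable_mul hg.memLp
  have h := Yuk.yukRep (rate e) g _ hk.le (hg.weakPoisson hσ) (Or.inl ⟨hk, i1, by
    refine ((i2.const_mul (-2)).add (i1.const_mul (-2 * e))).congr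
      (Eventually.of_forall fun x => ?_)
    simp only [Pi.add_apply]
    ring⟩)
  filter_upwards [h] with x hx
  rw [hx, ← integral_const_mul]
  refine integral_congr_ae (Eventually.of_forall fun y => ?_)
  simp only [hk2]
  ring

theorem ae_eq_zero_false {g : Space → ℝ} (hn : sqn g = 1) (h : g =ᵐ[volume] 0) : False := by
  have : sqn g = 0 := by
    refine integral_eq_zero_of_ae ?_
    filter_upwards [h] with x hx
    simp [hx]
  linarith

/-- A nonnegative even minimiser is positive. -/
theorem IsSectorMin.pos {l σ e : ℝ} {g : Space → ℝ} (hg : IsSectorMin l σ e g) (hσ : σ ^ 2 = 1)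
    (he : e < 0) (h0 : ∀ x, 0 ≤ g x) : ∀ᵐ x : Space, 0 < g x := by
  filter_upwards [hg.repr hσ he, ae_off_centres l] with x hx hc
  have hnn : ∀ y, 0 ≤ yuk (rate e) (x - y) * pot l y * g y := fun y =>
    mul_nonneg (mul_nonneg (Yuk.yuk_nonneg _ _) (pot_nonneg l y)) (h0 y)
  rw [hx]
  refine mul_pos two_pos ((integral_nonneg hnn).lt_of_ne fun h => ae_eq_zero_false hg.norm_one ?_)
  filter_upwards [(integral_eq_zero_iff_of_nonneg hnn (integrable_kernel l he hg.memLp hc)).1 h.symm,
    ae_off_centres l, ae_ne x] with y hy hyc hyx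
  simp only [Pi.zero_apply, mul_eq_zero] at hy
  rcases hy with (h1 | h1) | h1
  · exact absurd h1 (yuk_pos _ (sub_ne_zero.2 (Ne.symm hyx))).ne'
  · exact absurd h1 (pot_pos hyc).ne'
  · exact h1

theorem norm_sub_mirror_sq (x y : Space) :
    ‖x - mirror y‖ ^ 2 = ‖x - y‖ ^ 2 + 4 * (height x * height y) := by
  simp only [EuclideanSpace.real_norm_sq_eq, Fin.sum_univ_three, PiLp.sub_apply, mirror_apply,
    height_eq]
  simp
  ring

theorem yuk_lt_of_lt {k : ℝ} (hk : 0 ≤ k) {a b : Space} (ha : a ≠ 0) (h : ‖a‖ < ‖b‖) :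
    yuk k b < yuk k a := by
  have ha0 := norm_pos_iff.2 ha
  unfold yuk
  refine div_lt_div₀' (Real.exp_le_exp.2 (by nlinarith)) ?_ (Real.exp_pos _) (by positivity)
  have := Real.pi_pos
  nlinarith

theorem IsSectorMin.pos_upper {l e : ℝ} {g : Space → ℝ} (hg : IsSectorMin l (-1) e g) (he : e < 0)
    (h0 : ∀ x, g x = signH x * |g x|) : ∀ᵐ x : Space, 0 < height x → 0 < g x := by
  filter_upwards [hg.repr (by norm_num) he, ae_off_centres l] with x hx hc hpos
  set k := rate e
  set F := fun y => yuk k (x - y) * pot l y * g y with hF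
  have hi : Integrable F := integrable_kernel l he hg.memLp hc
  have hi' : Integrable fun y => F (mirror y) := by
    have := measurePreserving_mirror.integrable_comp hi.aestronglyMeasurable
    exact this.2 hi
  set G := fun y => (yuk k (x - y) - yuk k (x - mirror y)) * pot l y * g y with hG
  have hsum : (fun y => F y + F (mirror y)) =ᵐ[volume] G := by
    filter_upwards [hg.parity_ae (by norm_num)] with y hy
    simp only [hF, hG, pot_mirror, hy]
    ring
  have hGi : Integrable G := (hi.add hi').congr hsum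
  have hGint : ∫ y, G y = 2 * ∫ y, F y := by
    rw [← integral_congr_ae hsum, integral_add hi hi', integral_comp_mirror F]
    ring
  have hsgn : ∀ y, y ≠ x → mirror y ≠ x → height y ≠ 0 →
      0 < (yuk k (x - y) - yuk k (x - mirror y)) * signH y := by
    intro y hyx hmx hy
    have hk := (rate_pos he).le
    have e1 := norm_sub_mirror_sq x y
    rcases lt_or_gt_of_ne hy with h | h
    · rw [signH, if_neg (not_le.2 h), mul_neg_one, neg_sub, sub_pos]
      refine yuk_lt_of_lt hk (sub_ne_zero.2 (Ne.symm hmx)) ?_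
      exact lt_of_pow_lt_pow_left₀ 2 (norm_nonneg _) (by nlinarith [mul_neg_of_pos_of_neg hpos h])
    · rw [signH, if_pos h.le, mul_one, sub_pos]
      refine yuk_lt_of_lt hk (sub_ne_zero.2 (Ne.symm hyx)) ?_
      exact lt_of_pow_lt_pow_left₀ 2 (norm_nonneg _) (by nlinarith [mul_pos hpos h])
  have hmx : ∀ᵐ y : Space, mirror y ≠ x := by
    filter_upwards [ae_ne (mirror x)] with y hy h
    exact hy (by rw [← h, mirror_mirror])
  have hGnn : 0 ≤ᵐ[volume] G := by
    filter_upwards [ae_ne x, hmx, ae_height_ne] with y h1 h2 h3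
    simp only [Pi.zero_apply, hG]
    rw [h0 y, show ∀ a b c d : ℝ, a * b * (c * d) = a * c * (b * d) from fun a b c d => by ring]
    exact mul_nonneg (hsgn y h1 h2 h3).le (mul_nonneg (pot_nonneg l y) (abs_nonneg _))
  have hx' : g x = ∫ y, G y := by rw [hx, hGint]
  rw [hx']
  refine (integral_nonneg_of_ae hGnn).lt_of_ne fun h => ae_eq_zero_false hg.norm_one ?_
  filter_upwards [(integral_eq_zero_iff_of_nonneg_ae hGnn hGi).1 h.symm, ae_ne x, hmx, ae_height_ne,
    ae_off_centres l] with y hy h1 h2 h3 h4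
  simp only [Pi.zero_apply, hG, mul_eq_zero] at hy
  rcases hy with (h5 | h5) | h5
  · exact absurd (by rw [h5, zero_mul]) (hsgn y h1 h2 h3).ne'
  · exact absurd h5 (pot_pos h4).ne'
  · exact h5

/-- The even level lies strictly below the odd one. -/
theorem level_lt {l eg eu E' : ℝ} {ξ g u : Space → ℝ} (hb : SectorBound l 1 E' ξ)
    (hg : IsSectorMin l 1 eg g) (hu : IsSectorMin l (-1) eu u) (hE : eg < E') (he : eg < 0)
    (hgp : ∀ᵐ x : Space, 0 < g x) (hu0 : ∀ x, u x = signH x * |u x|) : eg < eu := by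
  obtain ⟨φ, hφ, hq, hlim⟩ := hu.limit
  have hle : eg ≤ eu := by
    refine ge_of_tendsto hq (Eventually.of_forall fun k => ?_)
    have := hg.lower _ (hφ k).1.abs fun x => by simp [(hφ k).2.2 x]
    rw [sqn_abs, (hφ k).2.1, mul_one] at this
    exact this.trans (qform_abs_le l (hφ k).1)
  refine hle.lt_of_ne fun heq => ?_
  subst heq
  obtain ⟨c, hc2, hceq⟩ := sectorMin_unique hb hg (hu.abs_limit (Or.inr rfl) hg.lower) hE
  have hc : c = 1 := by
    rcases sq_eq_one_iff.1 hc2 with h | h
    · exact h
    · exfalso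
      subst h
      refine ae_eq_zero_false hg.norm_one ?_
      filter_upwards [hceq, hgp] with x hx hp
      linarith [abs_nonneg (u x)]
  subst hc
  simp only [one_mul] at hceq
  have hfin : ∀ᵐ x : Space, height x ≤ 0 := by
    filter_upwards [hg.repr (by norm_num) he, hu.repr (by norm_num) he, ae_off_centres l, hceq]
      with x hgx hux hc heqx
    by_contra hpos
    have hux' : u x = g x := by
      rw [hu0 x, signH, if_pos (le_of_lt (not_le.1 hpos)), one_mul, heqx]
    have hnn : ∀ᵐ y : Space, 0 ≤ yuk (rate eg) (x - y) * pot l y * (g y - u y) := by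
      filter_upwards [hceq] with y hy
      refine mul_nonneg (mul_nonneg (Yuk.yuk_nonneg _ _) (pot_nonneg l y)) ?_
      linarith [le_abs_self (u y)]
    have i1 := integrable_kernel l he hg.memLp hc
    have i2 := integrable_kernel l he hu.memLp hc
    have hz : ∫ y, yuk (rate eg) (x - y) * pot l y * (g y - u y) = 0 := by
      simp only [mul_sub]
      rw [integral_sub i1 i2]
      linarith
    have hi : Integrable fun y => yuk (rate eg) (x - y) * pot l y * (g y - u y) := by
      simp only [mul_sub]; exact i1.sub i2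
    have hu_eq : ∀ᵐ y : Space, u y = g y := by
      filter_upwards [(integral_eq_zero_iff_of_nonneg_ae hnn hi).1 hz, ae_ne x, ae_off_centres l]
        with y hy h1 h2
      simp only [Pi.zero_apply, mul_eq_zero, sub_eq_zero] at hy
      rcases hy with (h3 | h3) | h3
      · exact absurd h3 (yuk_pos _ (sub_ne_zero.2 (Ne.symm h1))).ne'
      · exact absurd h3 (pot_pos h2).ne'
      · exact h3.symm
    refine ae_eq_zero_false hg.norm_one ?_
    filter_upwards [hu_eq, measurePreserving_mirror.quasiMeasurePreserving.ae hu_eq,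
      hg.parity_ae (by norm_num), hu.parity_ae (by norm_num)] with y h1 h2 h3 h4
    simp only [Pi.zero_apply]
    linarith
  have hall : ∀ᵐ x : Space, height x = 0 := by
    filter_upwards [hfin, measurePreserving_mirror.quasiMeasurePreserving.ae hfin] with x h1 h2
    rw [height_mirror] at h2
    linarith
  obtain ⟨x, h1, h2⟩ := (hall.and ae_height_ne).exists
  exact h2 h1

end Vale.Agent.P363.One
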