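import Vale.Agent.P363.Exist.One.Basic

/-!
P363: the two-centre quadratic form on test functions: form bound, bilinearity, symmetries.
-/

noncomputable section

namespace Vale.Agent.P363.One

open MeasureTheory Filter Set
open scoped BigOperators Topology NNReal RealInnerProductSpace

theorem integral_lin3 {F G H : Space → ℝ} (hF : Integrable F) (hG : Integrable G)
    (hH : Integrable H) (a b c : ℝ) :
    a * (∫ x, F x) + b * (∫ x, G x) + c * (∫ x, H x) = ∫ x, (a * F x + b * G x + c * H x) := by
  rw [← integral_const_mul, ← integral_const_mul, ← integral_const_mul,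
    ← integral_add (hF.const_mul _) (hG.const_mul _)]
  exact (integral_add ((hF.const_mul a).add (hG.const_mul b)) (hH.const_mul c)).symm

theorem IsTest1.add {f g : Space → ℝ} (hf : IsTest1 f) (hg : IsTest1 g) :
    IsTest1 fun x => f x + g x := by
  obtain ⟨K, hK⟩ := hf.lipschitz
  obtain ⟨L, hL⟩ := hg.lipschitz
  exact ⟨⟨K + L, hK.add hL⟩, hf.compact.add hg.compact⟩

theorem IsTest1.smul {f : Space → ℝ} (hf : IsTest1 f) (t : ℝ) : IsTest1 fun x => t * f x :=
  hf.mul (LipschitzWith.const t)

theorem IsTest1.sq {f : Space → ℝ} (hf : IsTest1 f) : IsTest1 fun x => f x ^ 2 := by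
  obtain ⟨K, hK⟩ := hf.lipschitz
  simpa [pow_two] using hf.mul hK

theorem IsTest1.comp_isometry {f : Space → ℝ} (hf : IsTest1 f) (T : Space ≃ₗᵢ[ℝ] Space) :
    IsTest1 fun x => f (T x) := by
  obtain ⟨K, hK⟩ := hf.lipschitz
  exact ⟨⟨K * 1, hK.comp T.isometry.lipschitz⟩, hf.compact.comp_homeomorph T.toHomeomorph⟩

theorem IsTest1.comp_sub {f : Space → ℝ} (hf : IsTest1 f) (p : Space) :
    IsTest1 fun x => f (x - p) := by
  obtain ⟨K, hK⟩ := hf.lipschitz
  exact ⟨⟨K * 1, hK.comp (IsometryEquiv.subRight p).isometry.lipschitz⟩,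
    hf.compact.comp_homeomorph (Homeomorph.subRight p)⟩

theorem sum_radial_sq_le (p x : Space) : ∑ a, ((x - p) a / ‖x - p‖) ^ 2 ≤ 1 := by
  simp only [div_pow, ← Finset.sum_div, ← EuclideanSpace.real_norm_sq_eq]
  exact div_self_le_one _

theorem radial_sq_le (p : Space) (f : Space → ℝ) (x : Space) :
    radial p f x ^ 2 ≤ ∑ a, deriv3 a f x ^ 2 :=
  (Finset.sum_mul_sq_le_sq_mul_sq _ _ _).trans
    (mul_le_of_le_one_left (Finset.sum_nonneg fun _ _ => sq_nonneg _) (sum_radial_sq_le p x))

theorem radial_mul {f g : Space → ℝ} {x : Space} (hf : DifferentiableAt ℝ f x)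
    (hg : DifferentiableAt ℝ g x) (p : Space) :
    radial p (fun y => f y * g y) x = f x * radial p g x + g x * radial p f x := by
  simp only [radial, deriv3_mul hf hg, Finset.mul_sum, ← Finset.sum_add_distrib]
  exact Finset.sum_congr rfl fun a _ => by ring

theorem integrable_radial {g : Space → ℝ} (hg : IsTest1 g) (p : Space) :
    Integrable (radial p g) := by
  refine (integrable_finsetSum Finset.univ fun a _ => ?_ : Integrable fun x =>
    ∑ a, (x - p) a / ‖x - p‖ * deriv3 a g x)
  obtain ⟨L, hL⟩ := hg.lipschitz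
  refine integrable_of_bound_tsupport hg.compact
    ((show Measurable fun x : Space => (x - p) a / ‖x - p‖ by fun_prop).mul (measurable_deriv3 a g))
    (B := (L : ℝ)) (fun x => ?_) fun x hx => by simp [deriv3_eq_zero hx]
  rw [abs_mul]
  refine (mul_le_of_le_one_left (abs_nonneg _) ?_).trans (abs_deriv3_le hL a x)
  rw [abs_div, abs_norm]
  exact div_le_one_of_le₀ (PiLp.norm_apply_le (x - p) a) (norm_nonneg _)

/-- The Coulomb singularity is infinitesimally bounded by the Dirichlet integral. -/
theorem coulomb_le {f : Space → ℝ} (hf : IsTest1 f) (p : Space) {ε : ℝ} (hε : 0 < ε) :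
    ∫ x, f x ^ 2 / ‖x - p‖ ≤ ε * kin f + 1 / (4 * ε) * sqn f := by
  obtain ⟨K, hK⟩ := hf.lipschitz
  have h := integral_div_norm hf.sq p
  have hG := integrable_grad_sq hf
  have hF := integrable_sq hf
  suffices -∫ x, radial p (fun y => f y ^ 2) x ≤
      ∫ x, (2 * ε * ∑ a, deriv3 a f x ^ 2 + 1 / (2 * ε) * f x ^ 2) by
    rw [integral_add (hG.const_mul _) (hF.const_mul _), integral_const_mul, integral_const_mul]
      at this
    have e : 1 / (4 * ε) * sqn f * 2 = 1 / (2 * ε) * sqn f := by field_simp; ring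
    simp only [kin, sqn] at e ⊢
    linarith
  rw [← integral_neg]
  refine integral_mono_ae (integrable_radial hf.sq p).neg ((hG.const_mul _).add (hF.const_mul _)) ?_
  filter_upwards [hK.ae_differentiableAt (μ := volume)] with x hx
  have he : radial p (fun y => f y ^ 2) x = 2 * (f x * radial p f x) := by
    rw [funext fun y => pow_two (f y), radial_mul hx hx]; ring
  rw [he]
  refine le_trans ?_ (add_le_add (mul_le_mul_of_nonneg_left (radial_sq_le p f x) (by positivity))
    le_rfl)
  have := sq_nonneg (2 * ε * radial p f x + f x)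
  field_simp
  nlinarith

theorem pot_nonneg (l : ℝ) (x : Space) : 0 ≤ pot l x :=
  Finset.sum_nonneg fun _ _ => by positivity

theorem measurable_pot (l : ℝ) : Measurable (pot l) := by
  unfold pot; fun_prop

theorem integrable_pot_mul (l : ℝ) {g : Space → ℝ} (hg : Continuous g)
    (hgc : HasCompactSupport g) : Integrable fun x => pot l x * g x := by
  simp only [pot, Finset.sum_mul]
  refine integrable_finsetSum _ fun j _ => ?_
  simpa only [one_div_mul_eq_div] using integrable_div_norm hg hgc (centre l j)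

theorem potBound : PotBoundStmt := by
  intro l ε hε f hf
  have hi := integrable_pot_mul l hf.sq.continuous hf.sq.compact
  refine ⟨hi, ?_⟩
  simp only [pot, Finset.sum_mul, one_div_mul_eq_div]
  rw [integral_finsetSum _ fun j _ =>
    integrable_div_norm hf.sq.continuous hf.sq.compact (centre l j), Fin.sum_univ_two]
  have h0 := coulomb_le hf (centre l 0) (half_pos hε)
  have h1 := coulomb_le hf (centre l 1) (half_pos hε)
  have e : 1 / (4 * (ε / 2)) * sqn f = sqn f / ε / 2 := by field_simp; ring
  linarith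

/-- The form bounded below. -/
theorem qform_ge (l : ℝ) {f : Space → ℝ} (hf : IsTest1 f) :
    kin f / 4 - 4 * sqn f ≤ qform l f := by
  have h := (potBound l (1 / 4) (by norm_num) f hf).2
  rw [qform]
  linarith

/-- The bilinear form. -/
def qbil (l : ℝ) (f g : Space → ℝ) : ℝ :=
  (∫ x, ∑ a, deriv3 a f x * deriv3 a g x) / 2 - ∫ x, pot l x * (f x * g x)

theorem integrable_deriv3_mul {f g : Space → ℝ} (hf : IsTest1 f) (hg : IsTest1 g) :
    Integrable fun x => ∑ a, deriv3 a f x * deriv3 a g x := by
  refine integrable_finsetSum _ fun a _ => ?_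
  obtain ⟨K, hK⟩ := hf.lipschitz
  obtain ⟨L, hL⟩ := hg.lipschitz
  refine integrable_of_bound_tsupport hf.compact
    ((measurable_deriv3 a f).mul (measurable_deriv3 a g)) (B := (K : ℝ) * L) (fun x => ?_)
    fun x hx => by simp [deriv3_eq_zero hx]
  rw [abs_mul]
  exact mul_le_mul (abs_deriv3_le hK a x) (abs_deriv3_le hL a x) (abs_nonneg _) K.coe_nonneg

theorem integrable_pot_mul_mul (l : ℝ) {f g : Space → ℝ} (hf : IsTest1 f) (hg : IsTest1 g) :
    Integrable fun x => pot l x * (f x * g x) :=
  integrable_pot_mul l (hf.continuous.mul hg.continuous) hf.compact.mul_right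

theorem kin_add_smul {f g : Space → ℝ} (hf : IsTest1 f) (hg : IsTest1 g) (s t : ℝ) :
    kin (fun x => s * f x + t * g x) = s ^ 2 * kin f +
      2 * s * t * (∫ x, ∑ a, deriv3 a f x * deriv3 a g x) + t ^ 2 * kin g := by
  obtain ⟨K, hK⟩ := hf.lipschitz
  obtain ⟨L, hL⟩ := hg.lipschitz
  simp only [kin]
  rw [integral_lin3 (integrable_grad_sq hf) (integrable_deriv3_mul hf hg) (integrable_grad_sq hg)]
  refine integral_congr_ae ?_
  filter_upwards [hK.ae_differentiableAt (μ := volume), hL.ae_differentiableAt (μ := volume)]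
    with x hx hy
  simp only [Finset.mul_sum, ← Finset.sum_add_distrib]
  refine Finset.sum_congr rfl fun a _ => ?_
  rw [deriv3, fderiv_fun_add (hx.const_mul s) (hy.const_mul t), fderiv_const_mul hx,
    fderiv_const_mul hy]
  simp only [deriv3, add_apply, smul_apply, smul_eq_mul]
  ring

theorem qform_add_smul (l : ℝ) {f g : Space → ℝ} (hf : IsTest1 f) (hg : IsTest1 g) (s t : ℝ) :
    qform l (fun x => s * f x + t * g x) =
      s ^ 2 * qform l f + 2 * s * t * qbil l f g + t ^ 2 * qform l g := by
  have i1 := integrable_pot_mul l hf.sq.continuous hf.sq.compact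
  have i2 := integrable_pot_mul_mul l hf hg
  have i3 := integrable_pot_mul l hg.sq.continuous hg.sq.compact
  have e : ∫ x, pot l x * (s * f x + t * g x) ^ 2 = s ^ 2 * (∫ x, pot l x * f x ^ 2) +
      2 * s * t * (∫ x, pot l x * (f x * g x)) + t ^ 2 * ∫ x, pot l x * g x ^ 2 := by
    rw [integral_lin3 i1 i2 i3]
    exact integral_congr_ae (Eventually.of_forall fun x => by ring)
  simp only [qform, qbil, kin_add_smul hf hg, e]
  ring

theorem sqn_add_smul {f g : Space → ℝ} (hf : MemLp f 2) (hg : MemLp g 2) (s t : ℝ) :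
    sqn (fun x => s * f x + t * g x) = s ^ 2 * sqn f + 2 * s * t * ip f g + t ^ 2 * sqn g := by
  have i1 := hf.integrable_sq
  have i2 : Integrable fun x => f x * g x := hf.integrable_mul hg
  have i3 := hg.integrable_sq
  simp only [sqn, ip]
  rw [integral_lin3 i1 i2 i3]
  exact integral_congr_ae (Eventually.of_forall fun x => by ring)

theorem IsTest1.memLp {f : Space → ℝ} (hf : IsTest1 f) : MemLp f 2 :=
  hf.continuous.memLp_of_hasCompactSupport hf.compact

/-! ### Symmetries -/

theorem deriv3_comp_isometry (f : Space → ℝ) (T : Space ≃ₗᵢ[ℝ] Space) (a : Fin 3) (x : Space) :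
    deriv3 a (fun y => f (T y)) x = fderiv ℝ f (T x) (T (unit3 a)) := by
  have := T.toContinuousLinearEquiv.comp_right_fderiv (f := f) (x := x)
  simp only [deriv3]
  rw [show (fun y => f (T y)) = f ∘ T.toContinuousLinearEquiv from rfl, this]
  rfl

theorem sum_sq_comp_isometry (L : Space →L[ℝ] ℝ) (T : Space ≃ₗᵢ[ℝ] Space) :
    ∑ a, L (T (unit3 a)) ^ 2 = ∑ a, L (unit3 a) ^ 2 := by
  obtain ⟨w, rfl⟩ := (InnerProductSpace.toDual ℝ Space).surjective L
  simp only [InnerProductSpace.toDual_apply_apply]
  have h : ∀ a, ⟪w, T (unit3 a)⟫ = T.symm w a := fun a => by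
    rw [← inner_unit3 (T.symm w) a, ← T.inner_map_map (T.symm w), T.apply_symm_apply]
  simp only [h, inner_unit3, ← EuclideanSpace.real_norm_sq_eq, T.symm.norm_map]

theorem kin_comp_isometry (f : Space → ℝ) (T : Space ≃ₗᵢ[ℝ] Space) :
    kin (fun x => f (T x)) = kin f := by
  simp only [kin, deriv3_comp_isometry, sum_sq_comp_isometry]
  exact (T.measurePreserving).integral_comp T.toHomeomorph.measurableEmbedding
    fun y => ∑ a, fderiv ℝ f y (unit3 a) ^ 2

theorem kin_comp_sub (f : Space → ℝ) (p : Space) : kin (fun x => f (x - p)) = kin f := by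
  simp only [kin, deriv3, fderiv_comp_sub p]
  exact integral_sub_right_eq_self (fun y => ∑ a, fderiv ℝ f y (unit3 a) ^ 2) p

end Vale.Agent.P363.One
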