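import Vale.Agent.P363.Base

/-!
P363: one electron in the field of two unit charges at `± l` on the axis: the quadratic form on
real test functions, and what the two lowest levels provide.
-/

noncomputable section

namespace Vale.Agent.P363.One

open MeasureTheory Filter
open scoped BigOperators Topology

/-- The two nuclei. -/
def centre (l : ℝ) : Fin 2 → Space := ![l • unit3 2, -(l • unit3 2)]

/-- The attraction of the two nuclei. -/
def pot (l : ℝ) (x : Space) : ℝ := ∑ j, 1 / ‖x - centre l j‖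

/-- Real test functions. -/
structure IsTest1 (f : Space → ℝ) : Prop where
  lipschitz : ∃ K : NNReal, LipschitzWith K f
  compact : HasCompactSupport f

/-- The Dirichlet integral. -/
def kin (f : Space → ℝ) : ℝ := ∫ x, ∑ a, deriv3 a f x ^ 2

/-- The squared norm. -/
def sqn (f : Space → ℝ) : ℝ := ∫ x, f x ^ 2

/-- The inner product. -/
def ip (f g : Space → ℝ) : ℝ := ∫ x, f x * g x

/-- The quadratic form of `-Δ/2 - pot l`. -/
def qform (l : ℝ) (f : Space → ℝ) : ℝ := kin f / 2 - ∫ x, pot l x * f x ^ 2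

/-- `g` is a limit in mean square of normalised test functions of parity `σ` under the mirror
whose energies tend to `e`. -/
def IsLevelLimit (l σ e : ℝ) (g : Space → ℝ) : Prop :=
  ∃ φ : ℕ → Space → ℝ, (∀ k, IsTest1 (φ k) ∧ sqn (φ k) = 1 ∧ ∀ x, φ k (mirror x) = σ * φ k x) ∧
    Tendsto (fun k => qform l (φ k)) atTop (𝓝 e) ∧
    Tendsto (fun k => sqn (fun x => φ k x - g x)) atTop (𝓝 0)

/-- Invariance almost everywhere under the orthogonal maps fixing the axis. -/
def IsAxial (f : Space → ℝ) : Prop :=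
  ∀ T : Space ≃ₗᵢ[ℝ] Space, T (unit3 2) = unit3 2 → (fun x => f (T x)) =ᵐ[volume] f

/-- The two lowest levels: `g` even at `eg`, `u` odd at `eu`, and `qform` above `eu + gap` on
their orthogonal complement. -/
structure Levels (l eg eu gap : ℝ) (g u : Space → ℝ) : Prop where
  g_memLp : MemLp g 2
  u_memLp : MemLp u 2
  g_norm : sqn g = 1
  u_norm : sqn u = 1
  orth : ip g u = 0
  g_even : (fun x => g (mirror x)) =ᵐ[volume] g
  u_odd : (fun x => u (mirror x)) =ᵐ[volume] fun x => -u x
  g_axial : IsAxial g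
  u_axial : IsAxial u
  g_pos : ∀ᵐ x : Space, 0 < g x
  u_pos : ∀ᵐ x : Space, 0 < height x → 0 < u x
  gap_pos : 0 < gap
  eg_lt_eu : eg < eu
  top_neg : eu + gap < 0
  g_limit : IsLevelLimit l 1 eg g
  u_limit : IsLevelLimit l (-1) eu u
  lower : ∀ f, IsTest1 f →
    eg * ip g f ^ 2 + eu * ip u f ^ 2 + (eu + gap) * (sqn f - ip g f ^ 2 - ip u f ^ 2) ≤ qform l f
  g_eq : WeakPoisson Set.univ g fun x => -2 * (pot l x + eg) * g x
  u_eq : WeakPoisson Set.univ u fun x => -2 * (pot l x + eu) * u x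

/-- Two distant unit charges have such levels. -/
def LevelsStmt : Prop :=
  ∃ l₀ : ℝ, 0 < l₀ ∧ ∀ l, l₀ ≤ l → ∃ eg eu gap : ℝ, ∃ g u : Space → ℝ, Levels l eg eu gap g u

/-- The attraction is infinitesimally bounded by the kinetic energy. -/
def PotBoundStmt : Prop :=
  ∀ l ε : ℝ, 0 < ε → ∀ f, IsTest1 f →
    Integrable (fun x => pot l x * f x ^ 2) ∧ ∫ x, pot l x * f x ^ 2 ≤ ε * kin f + sqn f / ε

end Vale.Agent.P363.One
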