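import Vale.Agent.P363.Exist.One.Centres

/-!
P363: trial functions for two distant centres with energy close to `-1/2` in both sectors.
-/

noncomputable section

namespace Vale.Agent.P363.One

open MeasureTheory Filter Set
open scoped BigOperators Topology NNReal RealInnerProductSpace

/-- A trial profile. -/
def profile (L : ℝ) (x : Space) : ℝ :=
  max 0 (min 1 (2 - ‖x‖ / L)) * Real.exp (-‖x‖)

theorem lipschitz_ramp {L : ℝ} (hL : 0 < L) :
    LipschitzWith (1 / L).toNNReal fun x : Space => max 0 (min 1 (2 - ‖x‖ / L)) := by
  refine LipschitzWith.of_dist_le_mul fun x y => ?_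
  rw [Real.coe_toNNReal _ (by positivity), Real.dist_eq, dist_eq_norm]
  refine (abs_max_sub_max_le_max _ _ _ _).trans ?_
  rw [sub_self, abs_zero, max_eq_right (abs_nonneg _)]
  refine (abs_min_sub_min_le_max _ _ _ _).trans ?_
  rw [sub_self, abs_zero, max_eq_right (abs_nonneg _),
    show 2 - ‖x‖ / L - (2 - ‖y‖ / L) = (‖y‖ - ‖x‖) / L by ring, abs_div, abs_of_pos hL,
    div_le_iff₀ hL, show 1 / L * ‖x - y‖ * L = ‖x - y‖ by field_simp, norm_sub_rev]
  exact abs_norm_sub_norm_le _ _

theorem lipschitz_expNeg : LipschitzWith 1 fun x : Space => Real.exp (-‖x‖) := by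
  have h1 : LipschitzOnWith 1 Real.exp (Iic 0) := by
    refine (convex_Iic (0 : ℝ)).lipschitzOnWith_of_nnnorm_deriv_le
      (fun x _ => Real.differentiableAt_exp) fun x hx => ?_
    rw [Real.deriv_exp, ← NNReal.coe_le_coe, coe_nnnorm, Real.norm_eq_abs,
      abs_of_pos (Real.exp_pos _), NNReal.coe_one]
    exact Real.exp_le_one_iff.2 hx
  have h2 : LipschitzWith 1 fun x : Space => -‖x‖ := lipschitzWith_one_norm.neg
  have h3 : LipschitzOnWith (1 * 1) (fun x : Space => Real.exp (-‖x‖)) univ :=
    h1.comp h2.lipschitzOnWith fun x _ => mem_Iic.2 (neg_nonpos.2 (norm_nonneg _))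
  simpa using lipschitzOnWith_univ.1 h3

theorem profile_eq_zero {L : ℝ} (hL : 0 < L) {x : Space} (hx : 2 * L ≤ ‖x‖) :
    profile L x = 0 := by
  have : 2 - ‖x‖ / L ≤ 0 := by
    have : 2 ≤ ‖x‖ / L := by rw [le_div_iff₀ hL]; exact hx
    linarith
  rw [profile, max_eq_left ((min_le_right _ _).trans this), zero_mul]

theorem isTest1_profile {L : ℝ} (hL : 0 < L) : IsTest1 (profile L) := by
  have hc : HasCompactSupport fun x : Space => max 0 (min 1 (2 - ‖x‖ / L)) := by
    refine HasCompactSupport.intro (isCompact_closedBall (0 : Space) (2 * L)) fun x hx => ?_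
    rw [Metric.mem_closedBall, dist_zero_right, not_le] at hx
    have : 2 ≤ ‖x‖ / L := by rw [le_div_iff₀ hL]; exact hx.le
    exact max_eq_left ((min_le_right _ _).trans (by linarith))
  have := (IsTest1.mul ⟨⟨_, lipschitz_ramp hL⟩, hc⟩ lipschitz_expNeg)
  unfold profile
  simpa only [mul_comm] using this

theorem excess_profile_le {L : ℝ} (hL : 0 < L) :
    excess (profile L) ≤
      3 / L ^ 2 * Real.exp (-(2 * L)) * volume.real (Metric.closedBall (0 : Space) (2 * L)) := by
  have hη := lipschitz_ramp hL
  have hint : Integrable ((Metric.closedBall (0 : Space) (2 * L)).indicator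
      fun _ => 3 / L ^ 2 * Real.exp (-(2 * L))) :=
    (integrable_indicator_iff measurableSet_closedBall).2
      (integrableOn_const measure_closedBall_lt_top.ne)
  calc excess (profile L) ≤ ∫ x : Space, (Metric.closedBall (0 : Space) (2 * L)).indicator
        (fun _ => 3 / L ^ 2 * Real.exp (-(2 * L))) x := by
        refine integral_mono_ae (integrable_excess (isTest1_profile hL)) hint ?_
        filter_upwards [hη.ae_differentiableAt (μ := volume), ae_ne 0] with x hx h0
        set η := fun x : Space => max 0 (min 1 (2 - ‖x‖ / L)) with hη'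
        have hn : HasFDerivAt (fun y : Space => ‖y‖) (‖x‖⁻¹ • innerSL ℝ x) x := by
          have := ((hasFDerivAt_id x).norm_sq).sqrt (pow_ne_zero 2 (norm_ne_zero_iff.2 h0))
          simp only [id, Real.sqrt_sq (norm_nonneg _), ContinuousLinearMap.comp_id] at this
          refine this.congr_fderiv ?_
          ext v
          simp
          ring
        have he : HasFDerivAt (fun y : Space => Real.exp (-‖y‖))
            (Real.exp (-‖x‖) • -(‖x‖⁻¹ • innerSL ℝ x)) x := hn.neg.exp
        have hd : ∀ a, deriv3 a (profile L) x + x a / ‖x‖ * profile L x =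
            Real.exp (-‖x‖) * deriv3 a η x := by
          intro a
          change deriv3 a (fun y => η y * Real.exp (-‖y‖)) x + x a / ‖x‖ * (η x * Real.exp (-‖x‖)) = _
          rw [deriv3_mul hx he.differentiableAt, deriv3, deriv3, he.fderiv]
          simp [inner_unit3]
          ring
        simp only [hd, mul_pow, ← Finset.mul_sum]
        by_cases hz : ∀ a, deriv3 a η x = 0
        · simp only [hz, ne_eq, OfNat.ofNat_ne_zero, not_false_eq_true, zero_pow,
            Finset.sum_const_zero, mul_zero]
          exact indicator_nonneg (fun _ _ => by positivity) x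
        have hlo : L ≤ ‖x‖ := by
          by_contra h
          refine hz fun a => ?_
          have : η =ᶠ[𝓝 x] fun _ => (1 : ℝ) := by
            filter_upwards [continuous_norm.continuousAt.preimage_mem_nhds
              (Iio_mem_nhds (not_le.1 h))] with y hy
            have : ‖y‖ / L ≤ 1 := by rw [div_le_one hL]; exact le_of_lt hy
            rw [hη']
            simp only
            rw [min_eq_left (by linarith), max_eq_right zero_le_one]
          simp [deriv3, this.fderiv_eq]
        have hhi : ‖x‖ ≤ 2 * L := by
          by_contra h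
          refine hz fun a => ?_
          have : η =ᶠ[𝓝 x] fun _ => (0 : ℝ) := by
            filter_upwards [continuous_norm.continuousAt.preimage_mem_nhds
              (Ioi_mem_nhds (not_le.1 h))] with y hy
            have : 2 ≤ ‖y‖ / L := by rw [le_div_iff₀ hL]; exact le_of_lt hy
            exact max_eq_left ((min_le_right _ _).trans (by linarith))
          simp [deriv3, this.fderiv_eq]
        rw [indicator_of_mem (by simpa using hhi)]
        calc Real.exp (-‖x‖) ^ 2 * ∑ a, deriv3 a η x ^ 2
            ≤ Real.exp (-(2 * L)) * (3 / L ^ 2) := by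
              refine mul_le_mul ?_ ?_ (Finset.sum_nonneg fun _ _ => sq_nonneg _) (Real.exp_pos _).le
              · rw [← Real.exp_nat_mul]
                exact Real.exp_le_exp.2 (by push_cast; linarith)
              · refine (Finset.sum_le_card_nsmul _ _ ((1 / L) ^ 2) fun a _ => ?_).trans ?_
                · rw [← sq_abs]
                  refine pow_le_pow_left₀ (abs_nonneg _) ?_ 2
                  have := abs_deriv3_le hη a x
                  rwa [Real.coe_toNNReal _ (by positivity)] at this
                · simp
                  ring_nf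
                  exact le_rfl
          _ = _ := by ring
    _ = _ := by
        rw [integral_indicator_const _ measurableSet_closedBall, smul_eq_mul]
        ring

theorem sqn_profile_ge {L : ℝ} (hL : 1 ≤ L) :
    Real.exp (-2) * volume.real (Metric.closedBall (0 : Space) 1) ≤ sqn (profile L) := by
  have hint : Integrable ((Metric.closedBall (0 : Space) 1).indicator
      fun _ => Real.exp (-2)) :=
    (integrable_indicator_iff measurableSet_closedBall).2
      (integrableOn_const measure_closedBall_lt_top.ne)
  calc _ = ∫ x : Space, (Metric.closedBall (0 : Space) 1).indicator (fun _ => Real.exp (-2)) x := by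
        rw [integral_indicator_const _ measurableSet_closedBall, smul_eq_mul, mul_comm]
    _ ≤ _ := by
        refine integral_mono hint (integrable_sq (isTest1_profile (one_pos.trans_le hL))) fun x => ?_
        by_cases hx : x ∈ Metric.closedBall (0 : Space) 1
        · rw [indicator_of_mem hx]
          rw [Metric.mem_closedBall, dist_zero_right] at hx
          have h1 : ‖x‖ / L ≤ 1 := by rw [div_le_one (one_pos.trans_le hL)]; linarith
          simp only [profile]
          rw [min_eq_left (by linarith), max_eq_right zero_le_one, one_mul, ← Real.exp_nat_mul]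
          exact Real.exp_le_exp.2 (by push_cast; linarith)
        · rw [indicator_of_notMem hx]
          exact sq_nonneg _

/-- Trial functions close to `-1/2`. -/
theorem qH_profile_le : ∃ C : ℝ, 0 < C ∧ ∀ L : ℝ, 1 ≤ L →
    0 < sqn (profile L) ∧ qH (profile L) ≤ (-1 / 2 + C / L) * sqn (profile L) := by
  set v := volume.real (Metric.closedBall (0 : Space) 1) with hv
  have hv0 : 0 < v :=
    ENNReal.toReal_pos (Metric.measure_closedBall_pos volume _ one_pos).ne'
      measure_closedBall_lt_top.ne
  refine ⟨12 * Real.exp 2, by positivity, fun L hL => ?_⟩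
  have hL0 : 0 < L := one_pos.trans_le hL
  have hF := sqn_profile_ge hL
  have hF0 : 0 < sqn (profile L) := (by positivity : (0 : ℝ) < Real.exp (-2) * v).trans_le hF
  refine ⟨hF0, ?_⟩
  have hE := excess_profile_le hL0
  have hball : volume.real (Metric.closedBall (0 : Space) (2 * L)) = (2 * L) ^ 3 * v := by
    rw [Measure.addHaar_real_closedBall' volume _ (by positivity : (0 : ℝ) ≤ 2 * L)]
    simp [hv, finrank_euclideanSpace]
  have hexp : L ^ 2 * Real.exp (-(2 * L)) ≤ 1 := by
    have h := Real.add_one_le_exp L
    rw [Real.exp_neg, ← div_eq_mul_inv, div_le_one (Real.exp_pos _),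
      show 2 * L = L + L by ring, Real.exp_add, sq]
    exact mul_le_mul (by linarith) (by linarith) hL0.le (Real.exp_pos _).le
  have key : excess (profile L) ≤ 2 * (12 * Real.exp 2 / L) * sqn (profile L) := by
    refine hE.trans ?_
    rw [hball]
    calc 3 / L ^ 2 * Real.exp (-(2 * L)) * ((2 * L) ^ 3 * v)
        = 24 / L * (L ^ 2 * Real.exp (-(2 * L))) * v := by field_simp; ring
      _ ≤ 24 / L * 1 * v := by gcongr
      _ = 2 * (12 * Real.exp 2 / L) * (Real.exp (-2) * v) := by
          rw [Real.exp_neg]; field_simp; ring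
      _ ≤ _ := mul_le_mul_of_nonneg_left hF (by positivity)
  have := qH_eq (isTest1_profile hL0)
  linarith

theorem sector_trial : ∀ ε : ℝ, 0 < ε → ∃ l₀ : ℝ, 0 < l₀ ∧ ∀ l, l₀ ≤ l → ∀ σ : ℝ, σ ^ 2 = 1 →
    ∃ f, IsTest1 f ∧ sqn f = 1 ∧ (∀ x, f (mirror x) = σ * f x) ∧ qform l f ≤ -1 / 2 + ε := by
  obtain ⟨C, hC, hprof⟩ := qH_profile_le
  intro ε hε
  refine ⟨max 4 (4 * C / ε), by positivity, fun l hl σ hσ => ?_⟩
  have hl4 : 4 ≤ l := (le_max_left _ _).trans hl
  set L := l / 4 with hL
  have hL1 : 1 ≤ L := by rw [hL]; linarith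
  have hL0 : 0 < L := one_pos.trans_le hL1
  have hCε : C / L ≤ ε := by
    have h := (le_max_right 4 (4 * C / ε)).trans hl
    rw [div_le_iff₀ hε] at h
    rw [div_le_iff₀ hL0, hL]
    linarith
  obtain ⟨hF0, hq⟩ := hprof L hL1
  set R := l • unit3 2 with hR
  set w : Space → ℝ := fun x => profile L (x - R) with hw
  have hwt : IsTest1 w := (isTest1_profile hL0).comp_sub R
  have hwm := hwt.comp_mirror
  have hsupp : ∀ x, height x < l / 2 → w x = 0 := fun x hx => by
    refine profile_eq_zero hL0 ?_
    refine le_trans ?_ ((neg_le_abs _).trans (PiLp.norm_apply_le (x - R) 2))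
    simp [hR, height, unit3, hL] at hx ⊢
    linarith
  have hsupp' : ∀ x, -(l / 2) < height x → w (mirror x) = 0 := fun x hx =>
    hsupp _ (by rw [height_mirror]; linarith)
  have hcross : ∀ x, w x * w (mirror x) = 0 := fun x => by
    rcases lt_or_ge (height x) (l / 2) with h | h
    · rw [hsupp x h, zero_mul]
    · rw [hsupp' x (by linarith), mul_zero]
  have hw2 : sqn w = sqn (profile L) := integral_sub_right_eq_self (fun y => profile L y ^ 2) R
  have hwm2 : sqn (fun x => w (mirror x)) = sqn (profile L) :=
    (integral_comp_mirror fun x => w x ^ 2).trans hw2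
  have hqw : qform l w ≤ qH (profile L) := by
    rw [qform, qH, kin_comp_sub]
    refine sub_le_sub_left ?_ _
    rw [← integral_sub_right_eq_self (fun y => profile L y ^ 2 / ‖y‖) R]
    refine integral_mono ?_ (integrable_pot_mul l hwt.sq.continuous hwt.sq.compact) fun x => ?_
    · exact integrable_div_norm hwt.sq.continuous hwt.sq.compact R
    · simp only [hw, pot_eq, ← hR, add_mul]
      refine le_add_of_le_of_nonneg (le_of_eq ?_) (by positivity)
      ring
  have hb : qbil l w (fun x => w (mirror x)) = 0 := by
    have h1 : ∀ x, ∑ a, deriv3 a w x * deriv3 a (fun y => w (mirror y)) x = 0 := fun x => by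
      refine Finset.sum_eq_zero fun a _ => ?_
      rcases lt_or_ge (height x) (l / 2) with h | h
      · have : w =ᶠ[𝓝 x] fun _ => (0 : ℝ) := by
          filter_upwards [(show Continuous height from
            (EuclideanSpace.proj (2 : Fin 3) : Space →L[ℝ] ℝ).continuous).continuousAt.preimage_mem_nhds
              (Iio_mem_nhds h)] with y hy
          exact hsupp y hy
        simp [deriv3, this.fderiv_eq]
      · have : (fun y => w (mirror y)) =ᶠ[𝓝 x] fun _ => (0 : ℝ) := by
          filter_upwards [(show Continuous height from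
            (EuclideanSpace.proj (2 : Fin 3) : Space →L[ℝ] ℝ).continuous).continuousAt.preimage_mem_nhds
              (Ioi_mem_nhds (show -(l / 2) < height x by linarith))] with y hy
          exact hsupp' y hy
        simp [deriv3, this.fderiv_eq]
    simp [qbil, h1, hcross]
  set t := (√(2 * sqn (profile L)))⁻¹ with ht
  have ht2 : t ^ 2 * (2 * sqn (profile L)) = 1 := by
    rw [ht, inv_pow, Real.sq_sqrt (by positivity), inv_mul_cancel₀ (by positivity)]
  have hts : (σ * t) ^ 2 = t ^ 2 := by rw [mul_pow, hσ, one_mul]
  refine ⟨fun x => t * w x + σ * t * w (mirror x), (hwt.smul t).add (hwm.smul _), ?_, fun x => ?_, ?_⟩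
  · rw [sqn_add_smul hwt.memLp hwm.memLp, hts, hw2, hwm2,
      show ip w (fun x => w (mirror x)) = 0 by simp [ip, hcross]]
    linarith
  · simp only [mirror_mirror]
    linear_combination (-(t * w (mirror x))) * hσ
  · rw [qform_add_smul l hwt hwm, hb, hts, qform_comp_mirror]
    have h : qH (profile L) ≤ (-1 / 2 + ε) * sqn (profile L) :=
      hq.trans (mul_le_mul_of_nonneg_right (by linarith) hF0.le)
    have h' := mul_le_mul_of_nonneg_left (hqw.trans h) (by positivity : 0 ≤ 2 * t ^ 2)
    have e : 2 * t ^ 2 * ((-1 / 2 + ε) * sqn (profile L)) = -1 / 2 + ε := by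
      rw [← mul_assoc, mul_right_comm, mul_right_comm 2 (t ^ 2), mul_comm _ (t ^ 2), ht2, one_mul]
    linarith

end Vale.Agent.P363.One
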